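import Mathlib

/-!
# Unlinked sets of indices

The index set is `F₂^k × F₂^k` with the hyperbolic quadratic form `x · y`.  Unlinked sets have at
most `2^k` elements, and the structure of the unlinked sets with `2^k` elements.
-/

namespace Vale.Agent.P017.H260

open Finset

/-- vectors over the field with two elements -/
abbrev Vec (k : ℕ) := Fin k → ZMod 2

/-- the index set -/
abbrev Ix (k : ℕ) := Vec k × Vec k

variable {k : ℕ}

/-- exponent of the symbol `(D_u | D_v)` -/
def PhiK (u v : Ix k) : ZMod 2 := v.2 ⬝ᵥ (u.1 + v.1)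

/-- the quadratic form -/
def QK (w : Ix k) : ZMod 2 := w.1 ⬝ᵥ w.2

/-- the polar form -/
def BK (u v : Ix k) : ZMod 2 := u.1 ⬝ᵥ v.2 + v.1 ⬝ᵥ u.2

theorem vadd_self (u : Vec k) : u + u = 0 := by
  funext i; exact CharTwo.add_self_eq_zero _

theorem ixadd_self (u : Ix k) : u + u = 0 := Prod.ext (vadd_self _) (vadd_self _)

theorem add_add_cancel_ix (u w : Ix k) : u + (u + w) = w := by
  rw [← add_assoc, ixadd_self, zero_add]

theorem PhiK_self (u : Ix k) : PhiK u u = 0 := by
  unfold PhiK; rw [vadd_self, dotProduct_zero]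

theorem PhiK_add (u v : Ix k) : PhiK u v + PhiK v u = QK (u + v) := by
  unfold PhiK QK
  rw [add_comm v.1 u.1, ← add_dotProduct, dotProduct_comm, Prod.fst_add, Prod.snd_add,
    add_comm v.2 u.2]

theorem add_eq_zero_two (a b : ZMod 2) : a + b = 0 ↔ a = b := by revert a b; decide

theorem PhiK_symm_iff (u v : Ix k) : PhiK u v = PhiK v u ↔ QK (u + v) = 0 := by
  rw [← PhiK_add, add_eq_zero_two]

theorem QK_zero : QK (0 : Ix k) = 0 := by unfold QK; simp

theorem QK_add (u v : Ix k) : QK (u + v) = QK u + QK v + BK u v := by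
  unfold QK BK
  rw [Prod.fst_add, Prod.snd_add, add_dotProduct, dotProduct_add, dotProduct_add,
    dotProduct_comm v.1 u.2]
  rw [dotProduct_comm u.2 v.1]
  ring

theorem BK_comm (u v : Ix k) : BK u v = BK v u := by unfold BK; rw [add_comm]

theorem BK_add_left (u v w : Ix k) : BK (u + v) w = BK u w + BK v w := by
  unfold BK
  rw [Prod.fst_add, Prod.snd_add, add_dotProduct, dotProduct_add]
  ring

theorem BK_add_right (u v w : Ix k) : BK u (v + w) = BK u v + BK u w := by
  rw [BK_comm, BK_add_left, BK_comm v, BK_comm w]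

theorem BK_smul_left (a : ZMod 2) (u v : Ix k) : BK (a • u) v = a * BK u v := by
  unfold BK
  rw [Prod.smul_fst, Prod.smul_snd, smul_dotProduct, dotProduct_smul, smul_eq_mul, smul_eq_mul]
  ring

theorem BK_smul_right (a : ZMod 2) (u v : Ix k) : BK u (a • v) = a * BK u v := by
  rw [BK_comm, BK_smul_left, BK_comm]

/-- the polar form as a bilinear form -/
def BKf : LinearMap.BilinForm (ZMod 2) (Ix k) :=
  LinearMap.mk₂ (ZMod 2) BK BK_add_left BK_smul_left BK_add_right BK_smul_right

theorem BKf_apply (u v : Ix k) : BKf u v = BK u v := rfl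

theorem BK_sep (u : Ix k) (h : ∀ v, BK u v = 0) : u = 0 := by
  refine Prod.ext ?_ ?_
  · funext i
    have := h (0, Pi.single i 1)
    unfold BK at this
    simpa using this
  · funext i
    have := h (Pi.single i 1, 0)
    unfold BK at this
    simpa using this

theorem BKf_nondeg : (BKf (k := k)).Nondegenerate := by
  constructor
  · intro u h
    exact BK_sep u h
  · intro u h
    exact BK_sep u (fun v => by rw [BK_comm]; exact h v)

/-- totally isotropic subspaces have dimension at most `k` -/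
theorem finrank_isotropic (W : Submodule (ZMod 2) (Ix k)) (hW : ∀ u ∈ W, ∀ v ∈ W, BK u v = 0) :
    Module.finrank (ZMod 2) W ≤ k := by
  have h1 : W ≤ (BKf (k := k)).orthogonal W := by
    intro v hv
    rw [LinearMap.BilinForm.mem_orthogonal_iff]
    intro u hu
    exact hW u hu v hv
  have h2 := Submodule.finrank_mono h1
  rw [LinearMap.BilinForm.finrank_orthogonal BKf_nondeg] at h2
  have h3 : Module.finrank (ZMod 2) (Ix k) = 2 * k := by
    rw [Module.finrank_prod]; simp; ring
  omega

/-- unlinked sets -/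
def Unl (U : Finset (Ix k)) : Prop := ∀ u ∈ U, ∀ v ∈ U, QK (u + v) = 0

theorem unl_card (U : Finset (Ix k)) (hU : Unl U) : U.card ≤ 2 ^ k := by
  classical
  rcases U.eq_empty_or_nonempty with rfl | ⟨u0, hu0⟩
  · simp
  set W : Submodule (ZMod 2) (Ix k) := Submodule.span (ZMod 2) ((fun u => u0 + u) '' (U : Set (Ix k)))
    with hWdef
  have hB : ∀ u ∈ U, ∀ v ∈ U, BK (u0 + u) (u0 + v) = 0 := by
    intro u hu v hv
    have h1 := hU u hu v hv
    have h2 := hU u0 hu0 u hu
    have h3 := hU u0 hu0 v hv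
    have h4 : u + v = (u0 + u) + (u0 + v) := by
      have := ixadd_self u0
      calc u + v = (u0 + u0) + (u + v) := by rw [this, zero_add]
        _ = _ := by abel
    rw [h4, QK_add, h2, h3, zero_add, zero_add] at h1
    exact h1
  have hW : ∀ u ∈ W, ∀ v ∈ W, BK u v = 0 := by
    intro u hu
    have h1 : ∀ v ∈ U, BK u (u0 + v) = 0 := by
      intro v hv
      induction hu using Submodule.span_induction with
      | mem x hx =>
        obtain ⟨w, hw, rfl⟩ := hx
        exact hB w hw v hv
      | zero => unfold BK; simp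
      | add x y _ _ hx hy => rw [BK_add_left, hx, hy, add_zero]
      | smul a x _ hx => rw [BK_smul_left, hx, mul_zero]
    intro v hv
    induction hv using Submodule.span_induction with
    | mem x hx =>
      obtain ⟨w, hw, rfl⟩ := hx
      exact h1 w hw
    | zero => unfold BK; simp
    | add x y _ _ hx hy => rw [BK_add_right, hx, hy, add_zero]
    | smul a x _ hx => rw [BK_smul_right, hx, mul_zero]
  have h1 := finrank_isotropic W hW
  have h2 : Nat.card W = 2 ^ Module.finrank (ZMod 2) W := by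
    rw [Module.natCard_eq_pow_finrank (K := ZMod 2) (V := W)]
    simp
  have h3 : U.card ≤ Nat.card W := by
    have h4 : U.card = Nat.card U := by rw [Nat.card_eq_fintype_card, Fintype.card_coe]
    rw [h4]
    refine Nat.card_le_card_of_injective
      (fun u : U => (⟨u0 + u, Submodule.subset_span ⟨u, u.2, rfl⟩⟩ : W)) ?_
    intro a b hab
    have h5 := congrArg Subtype.val hab
    exact Subtype.ext (add_left_cancel h5)
  rw [h2] at h3
  exact h3.trans (Nat.pow_le_pow_right (by norm_num) h1)

/-- an element unlinked to all elements of an unlinked set of maximal size belongs to it -/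
theorem mem_of_unl {U : Finset (Ix k)} (hU : Unl U) (hc : U.card = 2 ^ k) {w : Ix k}
    (hw : ∀ u ∈ U, QK (w + u) = 0) : w ∈ U := by
  classical
  by_contra hn
  have h1 : Unl (insert w U) := by
    intro u hu v hv
    rw [Finset.mem_insert] at hu hv
    rcases hu with rfl | hu
    · rcases hv with rfl | hv
      · rw [ixadd_self, QK_zero]
      · exact hw v hv
    · rcases hv with rfl | hv
      · rw [add_comm]; exact hw u hu
      · exact hU u hu v hv
  have h2 := unl_card _ h1
  rw [Finset.card_insert_of_notMem hn, hc] at h2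
  omega

theorem eq_add_of {u v w : Ix k} (h : u + v = w) : v = u + w := by
  rw [← h, add_add_cancel_ix]

/-- the fourth point of a plane -/
theorem mem_fourth {U : Finset (Ix k)} (hU : Unl U) (hc : U.card = 2 ^ k) {a b c : Ix k}
    (ha : a ∈ U) (hb : b ∈ U) (hcU : c ∈ U) : a + b + c ∈ U := by
  refine mem_of_unl hU hc fun v hv => ?_
  have h1 := hU a ha v hv
  have h2 := hU b hb v hv
  have h3 := hU c hcU v hv
  have h4 := hU a ha b hb
  have h5 := hU a ha c hcU
  have h6 := hU b hb c hcU
  rw [QK_add] at h1 h2 h3 h4 h5 h6 ⊢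
  rw [QK_add, QK_add, BK_add_left, BK_add_left, BK_add_left]
  have hx : ∀ x y z w p q r s t o : ZMod 2, x + w + p = 0 → y + w + q = 0 → z + w + r = 0 →
      x + y + s = 0 → x + z + t = 0 → y + z + o = 0 →
      x + y + s + z + (t + o) + w + (p + q + r) = 0 := by decide
  exact hx _ _ _ _ _ _ _ _ _ _ h1 h2 h3 h4 h5 h6

/-- classification of the unlinked sets of maximal size -/
theorem unl_cases {U : Finset (Ix k)} (hU : Unl U) (hc : U.card = 2 ^ k) :
    (∃ a b c : Ix k, a ∈ U ∧ b ∈ U ∧ c ∈ U ∧ (a + b).1 ⬝ᵥ (a + c).2 = 1) ∨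
    (∃ b : Vec k, b ≠ 0 ∧ (∀ u ∈ U, ∀ v ∈ U, b ⬝ᵥ u.1 = b ⬝ᵥ v.1) ∧
      ∀ u ∈ U, (u.1, u.2 + b) ∈ U) ∨
    (∃ y : Vec k, U = univ.image fun x : Vec k => (x, y)) := by
  classical
  have hz2 : ∀ z : ZMod 2, z = 1 ∨ z = 0 := by decide
  by_cases h1 : ∃ a b c : Ix k, a ∈ U ∧ b ∈ U ∧ c ∈ U ∧ (a + b).1 ⬝ᵥ (a + c).2 = 1
  · exact Or.inl h1
  refine Or.inr ?_
  have h1' : ∀ a ∈ U, ∀ b ∈ U, ∀ c ∈ U, (a + b).1 ⬝ᵥ (a + c).2 = 0 := by
    intro a ha b hb c hc
    rcases hz2 ((a + b).1 ⬝ᵥ (a + c).2) with h | h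
    · exact absurd ⟨a, b, c, ha, hb, hc, h⟩ h1
    · exact h
  by_cases h2 : ∃ b : Vec k, b ≠ 0 ∧ (∀ u ∈ U, ∀ v ∈ U, b ⬝ᵥ u.1 = b ⬝ᵥ v.1)
  · left
    obtain ⟨b, hb0, hb⟩ := h2
    refine ⟨b, hb0, hb, fun u hu => mem_of_unl hU hc fun v hv => ?_⟩
    have h3 : ((u.1, u.2 + b) : Ix k) + v = (u + v) + (0, b) := by
      refine Prod.ext ?_ ?_
      · simp
      · simp only [Prod.snd_add]; abel
    rw [h3, QK_add, hU u hu v hv]
    unfold QK BK
    simp only [zero_dotProduct, add_zero, zero_add, Prod.fst_add]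
    rw [add_dotProduct, dotProduct_comm, dotProduct_comm v.1, hb u hu v hv]
    exact CharTwo.add_self_eq_zero _
  · right
    have hne : U.Nonempty := by
      rw [← Finset.card_pos, hc]; positivity
    obtain ⟨u0, hu0⟩ := hne
    refine ⟨u0.2, ?_⟩
    have h3 : U ⊆ univ.image fun x : Vec k => ((x, u0.2) : Ix k) := by
      intro u hu
      rw [Finset.mem_image]
      refine ⟨u.1, Finset.mem_univ _, ?_⟩
      refine Prod.ext rfl ?_
      show u0.2 = u.2
      by_contra hne
      apply h2
      refine ⟨u0.2 + u.2, ?_, ?_⟩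
      · intro h4
        apply hne
        have h5 := congrArg (fun z => u0.2 + z) h4
        simp only [← add_assoc, vadd_self, zero_add, add_zero] at h5
        exact h5.symm
      · intro v hv w hw
        have h6 := h1' v hv w hw u0 hu0
        have h7 := h1' v hv w hw u hu
        rw [Prod.fst_add, Prod.snd_add, dotProduct_add] at h6 h7
        have h8 : (v.1 + w.1) ⬝ᵥ (u0.2 + u.2) = 0 := by
          rw [dotProduct_add]
          have : ∀ x y z : ZMod 2, x + y = 0 → x + z = 0 → y + z = 0 := by decide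
          exact this _ _ _ h6 h7
        rw [← add_eq_zero_two, ← dotProduct_add, dotProduct_comm]
        exact h8
    refine Finset.eq_of_subset_of_card_le h3 ?_
    rw [hc]
    refine Finset.card_image_le.trans ?_
    simp

end Vale.Agent.P017.H260
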