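import Mathlib
import Vale.Agent.P017.H260.Lin

/-!
# Counting tuples independent modulo a vector
-/

namespace Vale.Agent.P017.H260

open Finset

variable {E : Type*} [AddCommGroup E] [Module (ZMod 2) E]

/-- independence modulo `d` -/
def IndV {k : ℕ} (d : E) (v : Fin k → E) : Prop :=
  ∀ a : Vec k, a ≠ 0 → ∑ i, a i • v i ≠ 0 ∧ ∑ i, a i • v i ≠ d

theorem z2_smul_cases (a : ZMod 2) (x : E) : a • x = 0 ∨ a • x = x := by
  have : a = 0 ∨ a = 1 := by revert a; decide
  rcases this with rfl | rfl
  · left; exact zero_smul _ _
  · right; exact one_smul _ _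

theorem eadd_self (x : E) : x + x = 0 := by
  have : (1 : ZMod 2) • x + (1 : ZMod 2) • x = 0 := by
    rw [← add_smul]
    rw [show (1 : ZMod 2) + 1 = 0 from rfl, zero_smul]
  rwa [one_smul] at this

theorem eeq_of_add {x y : E} (h : x + y = 0) : x = y := by
  have h1 := eadd_self y
  calc x = x + (y + y) := by rw [h1, add_zero]
    _ = x + y + y := by rw [add_assoc]
    _ = y := by rw [h, zero_add]

/-- the map whose image is the span -/
def spm {k : ℕ} (d : E) (v : Fin k → E) (z : Vec k × ZMod 2) : E := ∑ i, z.1 i • v i + z.2 • d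

theorem spm_add {k : ℕ} (d : E) (v : Fin k → E) (z w : Vec k × ZMod 2) :
    spm d v (z + w) = spm d v z + spm d v w := by
  unfold spm
  simp only [Prod.fst_add, Prod.snd_add, Pi.add_apply, add_smul, Finset.sum_add_distrib]
  abel

theorem spm_inj {k : ℕ} {d : E} (hd : d ≠ 0) {v : Fin k → E} (hv : IndV d v) :
    Function.Injective (spm d v) := by
  intro z w h
  have h1 : spm d v (z + w) = 0 := by rw [spm_add, h, eadd_self]
  have h2 : (z + w).1 = 0 := by
    by_contra hne
    have h3 := hv _ hne
    unfold spm at h1
    rcases z2_smul_cases (z + w).2 d with h4 | h4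
    · rw [h4, add_zero] at h1
      exact h3.1 h1
    · rw [h4] at h1
      exact h3.2 (eeq_of_add h1)
  have h3 : (z + w).2 = 0 := by
    by_contra hne
    have h4 : (z + w).2 = 1 := by
      have : ∀ a : ZMod 2, a ≠ 0 → a = 1 := by decide
      exact this _ hne
    unfold spm at h1
    rw [h2, h4, one_smul] at h1
    simp only [Pi.zero_apply, zero_smul, Finset.sum_const_zero, zero_add] at h1
    exact hd h1
  have h4 : z + w = 0 := Prod.ext h2 h3
  have h5 : ∀ x : Vec k × ZMod 2, x + x = 0 := by
    intro x
    refine Prod.ext (vadd_self _) (CharTwo.add_self_eq_zero _)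
  calc z = z + (w + w) := by rw [h5, add_zero]
    _ = z + w + w := by rw [add_assoc]
    _ = w := by rw [h4, zero_add]

theorem IndV_cons {k : ℕ} (d : E) (w : E) (v : Fin k → E) :
    IndV d (Fin.cons w v : Fin (k + 1) → E) ↔ IndV d v ∧ w ∉ Set.range (spm d v) := by
  constructor
  · intro h
    refine ⟨?_, ?_⟩
    · intro a ha
      have h1 := h (Fin.cons 0 a) (by
        intro h2
        apply ha
        funext i
        have := congrFun h2 i.succ
        simpa using this)
      simpa [Fin.sum_univ_succ] using h1
    · rintro ⟨z, hz⟩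
      have h1 := h (Fin.cons 1 z.1) (by
        intro h2
        have := congrFun h2 0
        simp at this)
      rw [Fin.sum_univ_succ] at h1
      simp only [Fin.cons_zero, one_smul, Fin.cons_succ] at h1
      rw [← hz] at h1
      unfold spm at h1
      have h2 := eadd_self (∑ i, z.1 i • v i)
      have h3 : ∑ i, z.1 i • v i + z.2 • d + ∑ i, z.1 i • v i = z.2 • d := by
        calc _ = (∑ i, z.1 i • v i + ∑ i, z.1 i • v i) + z.2 • d := by abel
          _ = _ := by rw [h2, zero_add]
      rw [h3] at h1
      rcases z2_smul_cases z.2 d with h4 | h4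
      · exact h1.1 h4
      · exact h1.2 h4
  · rintro ⟨h1, h2⟩ a ha
    rw [Fin.sum_univ_succ]
    simp only [Fin.cons_zero, Fin.cons_succ]
    have hz : a 0 = 0 ∨ a 0 = 1 := by
      generalize a 0 = b
      revert b; decide
    rcases hz with hz | hz
    · rw [hz, zero_smul, zero_add]
      refine h1 (fun i => a i.succ) ?_
      intro h3
      apply ha
      funext i
      refine Fin.cases hz (fun j => ?_) i
      exact congrFun h3 j
    · rw [hz, one_smul]
      refine ⟨?_, ?_⟩
      · intro h3
        apply h2
        refine ⟨((fun i => a i.succ), 0), ?_⟩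
        unfold spm
        rw [zero_smul, add_zero]
        exact (eeq_of_add h3).symm
      · intro h3
        apply h2
        refine ⟨((fun i => a i.succ), 1), ?_⟩
        unfold spm
        rw [one_smul]
        rw [← h3]
        have h4 := eadd_self (∑ i : Fin k, a i.succ • v i)
        calc _ = w + (∑ i : Fin k, a i.succ • v i + ∑ i : Fin k, a i.succ • v i) := by
              abel
          _ = _ := by rw [h4, add_zero]

variable [Fintype E]

open Classical in
/-- the number of independent tuples -/
theorem card_IndV (W : Submodule (ZMod 2) E) {d : E} (hdW : d ∈ W) (hd : d ≠ 0) (k : ℕ) :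
    (∑ v : Fin k → E, if (∀ i, v i ∈ W) ∧ IndV d v then (1 : ℝ) else 0) =
      ∏ i ∈ range k, ((Nat.card W : ℝ) - 2 ^ (i + 1)) := by
  induction k with
  | zero =>
    rw [Finset.prod_range_zero, Fintype.sum_unique, if_pos]
    refine ⟨fun i => i.elim0, fun a ha => ?_⟩
    exact absurd (Subsingleton.elim a 0) ha
  | succ k ih =>
    rw [Finset.prod_range_succ, ← ih, ← (Fin.consEquiv (fun _ => E)).sum_comp,
      Fintype.sum_prod_type_right, Finset.sum_mul]
    refine Finset.sum_congr rfl fun v _ => ?_
    have h1 : ∀ w : E, ((∀ i, (Fin.consEquiv (fun _ : Fin (k + 1) => E)) (w, v) i ∈ W) ∧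
        IndV d ((Fin.consEquiv (fun _ : Fin (k + 1) => E)) (w, v))) ↔
        (w ∈ W ∧ w ∉ Set.range (spm d v)) ∧ ((∀ i, v i ∈ W) ∧ IndV d v) := by
      intro w
      have e1 : (Fin.consEquiv (fun _ : Fin (k + 1) => E)) (w, v) = (Fin.cons w v : Fin (k + 1) → E) :=
        rfl
      rw [e1, IndV_cons, Fin.forall_fin_succ]
      simp only [Fin.cons_zero, Fin.cons_succ]
      tauto
    simp only [h1]
    by_cases hv : (∀ i, v i ∈ W) ∧ IndV d v
    · have hv' : ((∀ i, v i ∈ W) ∧ IndV d v) = True := eq_true hv
      simp only [hv', and_true, if_true, one_mul]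
      rw [← Finset.sum_filter, Finset.sum_const, nsmul_eq_mul, mul_one]
      have h2 : (univ.filter fun w : E => w ∈ W ∧ w ∉ Set.range (spm d v)) =
          (univ.filter fun w : E => w ∈ W) \ univ.image (spm d v) := by
        ext w
        simp only [Finset.mem_filter, Finset.mem_univ, true_and, Finset.mem_sdiff,
          Finset.mem_image, Set.mem_range]
      have h3 : univ.image (spm d v) ⊆ univ.filter fun w : E => w ∈ W := by
        intro w hw
        rw [Finset.mem_image] at hw
        obtain ⟨z, _, rfl⟩ := hw
        rw [Finset.mem_filter]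
        refine ⟨Finset.mem_univ _, ?_⟩
        exact W.add_mem (W.sum_mem fun i _ => W.smul_mem _ (hv.1 i)) (W.smul_mem _ hdW)
      rw [h2, Finset.card_sdiff_of_subset h3, Nat.cast_sub (Finset.card_le_card h3),
        Finset.card_image_of_injective _ (spm_inj hd hv.2), Finset.card_univ,
        Fintype.card_prod, Fintype.card_fun, ZMod.card, Fintype.card_fin]
      congr 1
      · congr 1
        rw [Nat.card_eq_fintype_card, Fintype.card_subtype]
      · push_cast
        rw [pow_succ]
    · have hv' : ((∀ i, v i ∈ W) ∧ IndV d v) = False := eq_false hv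
      simp only [hv', and_false, if_false, zero_mul, Finset.sum_const_zero]

end Vale.Agent.P017.H260
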