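import Vale.Agent.P017.H260.Tup
import Vale.Agent.P017.H260.Count

/-!
# The number of independent tuples as a sum over factorisations
-/

namespace Vale.Agent.P017.H260

open Finset Vale.Agent.P017.H509

variable {k : ℕ}

/-- the vector of `d` -/
def dvec (e : S) (m : ℕ) : S × (m.primeFactors → ZMod 2) := (e, fun _ => 1)

theorem inL_self : ∀ (e : S) (c : G), Good e c → inL e c e c := by
  decide +kernel

theorem cl_sum {m : ℕ} (hm : Squarefree m) (h30 : Nat.Coprime m 30) :
    ∑ p : m.primeFactors, cl (p : ℕ) = cl m := by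
  conv_rhs => rw [← Nat.prod_primeFactors_of_squarefree hm]
  rw [cl_prod]
  · exact Finset.sum_coe_sort m.primeFactors (fun p => cl p)
  · intro p hp
    exact Nat.Coprime.coprime_dvd_left (Nat.dvd_of_mem_primeFactors hp) h30

theorem dvec_mem {e : S} {m : ℕ} (hm : Squarefree m) (h30 : Nat.Coprime m 30)
    (hg : Good e (cl m)) : dvec e m ∈ V e m := by
  unfold V
  rw [Submodule.mem_inf]
  refine ⟨?_, ?_⟩
  · rw [Submodule.mem_iInf]
    intro p
    rw [LinearMap.mem_ker]
    show pr e (cl p) + (∑ q, if q = p then 0 else (1 : ZMod 2) * lg q p) +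
      1 * (pr e (cl p) + ∑ q : m.primeFactors, if q = p then 0 else lg q p) = 0
    simp only [one_mul]
    exact CharTwo.add_self_eq_zero _
  · show inL e (cl m) e (∑ p : m.primeFactors, (1 : ZMod 2) • cl (p : ℕ))
    simp only [one_smul]
    rw [cl_sum hm h30]
    exact inL_self _ _ hg

theorem dvec_ne {e : S} {m : ℕ} (hm : Squarefree m) (h1 : m ≠ 1) : dvec e m ≠ 0 := by
  intro h
  obtain ⟨p, hp⟩ := Nat.nonempty_primeFactors.2 (lt_of_le_of_ne
    (Nat.one_le_iff_ne_zero.2 hm.ne_zero) (Ne.symm h1))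
  have h2 := congrFun (congrArg Prod.snd h) ⟨p, hp⟩
  exact absurd h2 (by show (1 : ZMod 2) ≠ 0; decide)

/-- the independence condition in terms of the support -/
def IndT (e : S) (s : Fin k → S) (T : Finset (Ix k)) : Prop :=
  ∀ a : Vec k, a ≠ 0 → ¬ (∑ i, a i • s i = 0 ∧ ∀ u ∈ T, a ⬝ᵥ u.1 = 0) ∧
    ¬ (∑ i, a i • s i = e ∧ ∀ u ∈ T, a ⬝ᵥ u.1 = 1)

theorem mem_supp_Dc {ι : Type*} [Fintype ι] [DecidableEq ι] {n : ℕ} (c : n.primeFactors → ι)
    (u : ι) : u ∈ supp (Dc c) ↔ ∃ p, c p = u := by
  rw [mem_supp]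
  constructor
  · intro h
    by_contra hn
    push Not at hn
    apply h
    unfold Dc
    rw [Finset.filter_false_of_mem (fun p _ => hn p), Finset.prod_empty]
  · rintro ⟨p, hp⟩ h
    have h1 := (dvd_Dc_iff c u p).2 hp
    rw [h] at h1
    exact (Nat.prime_of_mem_primeFactors p.2).one_lt.ne' (Nat.dvd_one.1 h1)

/-- the vectors attached to the supports and the first components -/
def vOf {m : ℕ} (s : Fin k → S) (x : m.primeFactors → Vec k) (i : Fin k) :
    S × (m.primeFactors → ZMod 2) := (s i, fun p => x p i)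

theorem sum_vOf {m : ℕ} (s : Fin k → S) (x : m.primeFactors → Vec k) (a : Vec k) :
    ∑ i, a i • vOf s x i = (∑ i, a i • s i, fun p => a ⬝ᵥ x p) := by
  refine Prod.ext ?_ ?_
  · rw [Prod.fst_sum]; rfl
  · rw [Prod.snd_sum]
    funext p
    rw [Finset.sum_apply]
    rfl

theorem IndV_iff {m : ℕ} (e : S) (s : Fin k → S) (c : m.primeFactors → Ix k) :
    IndV (dvec e m) (vOf s fun p => (c p).1) ↔ IndT e s (supp (Dc c)) := by
  unfold IndV IndT
  refine forall_congr' fun a => imp_congr_right fun _ => ?_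
  rw [sum_vOf]
  refine and_congr (not_congr ?_) (not_congr ?_)
  · rw [Prod.ext_iff]
    refine and_congr Iff.rfl ?_
    constructor
    · intro h u hu
      obtain ⟨p, rfl⟩ := (mem_supp_Dc c u).1 hu
      exact congrFun h p
    · intro h
      funext p
      exact h (c p) ((mem_supp_Dc c _).2 ⟨p, rfl⟩)
  · rw [Prod.ext_iff]
    refine and_congr Iff.rfl ?_
    constructor
    · intro h u hu
      obtain ⟨p, rfl⟩ := (mem_supp_Dc c u).1 hu
      exact congrFun h p
    · intro h
      funext p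
      exact h (c p) ((mem_supp_Dc c _).2 ⟨p, rfl⟩)

/-- the exponent of the sign -/
theorem expo {m : ℕ} (h30 : Nat.Coprime m 30) (e : S) (s : Fin k → S) (c : m.primeFactors → Ix k) :
    ∑ p, ((c p).2 ⬝ᵥ fun i => hp e m p (vOf s (fun p => (c p).1) i)) =
      AF e s (fun u => cl (Dc c u)) + ∑ p : m.primeFactors, ∑ q : m.primeFactors,
        if q = p then 0 else PhiK (c q) (c p) * lg q p := by
  have h1 := sum_cl_Dc h30 c (fun u g => (∑ i, u.2 i * pr (s i) g) + QK u * pr e g)
    (fun u => by simp [pr_zero_right]) (fun u a b => by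
      simp only [pr_add_right, mul_add, Finset.sum_add_distrib]; ring)
  unfold AF
  rw [h1, ← Finset.sum_add_distrib]
  refine Finset.sum_congr rfl fun p _ => ?_
  have h2 : ∀ i, hp e m p (vOf s (fun p => (c p).1) i) =
      pr (s i) (cl p) + (∑ q, if q = p then 0 else (c q).1 i * lg q p) +
      (c p).1 i * (pr e (cl p) + ∑ q : m.primeFactors, if q = p then 0 else lg q p) := fun i => rfl
  unfold dotProduct
  simp only [h2, mul_add, Finset.sum_add_distrib]
  have h3 : ∑ i, (c p).2 i * ((c p).1 i * pr e (cl p)) = QK (c p) * pr e (cl p) := by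
    unfold QK dotProduct
    rw [Finset.sum_mul]
    refine Finset.sum_congr rfl fun i _ => ?_
    ring
  have h4 : ∑ i, (c p).2 i * ∑ q, (if q = p then 0 else (c q).1 i * lg q p) +
      ∑ i, (c p).2 i * ((c p).1 i * ∑ q : m.primeFactors, if q = p then 0 else lg q p) =
      ∑ q : m.primeFactors, if q = p then 0 else PhiK (c q) (c p) * lg q p := by
    rw [← Finset.sum_add_distrib]
    simp only [Finset.mul_sum]
    simp only [← Finset.sum_add_distrib]
    rw [Finset.sum_comm]
    refine Finset.sum_congr rfl fun q _ => ?_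
    by_cases hq : q = p
    · simp only [if_pos hq, mul_zero, add_zero, Finset.sum_const_zero]
    · simp only [if_neg hq]
      unfold PhiK dotProduct
      rw [Finset.sum_mul]
      refine Finset.sum_congr rfl fun i _ => ?_
      rw [Pi.add_apply]; ring
  rw [h3, ← h4]
  ring

/-- detecting zero by signs -/
theorem ind_zero {P : Type*} [Fintype P] [DecidableEq P] (z : P → Vec k) :
    (if ∀ p, z p = 0 then (1 : ℝ) else 0) =
      (1 / (2 : ℝ) ^ k) ^ Fintype.card P * ∑ y : P → Vec k, sg (∑ p, y p ⬝ᵥ z p) := by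
  have h1 : ∀ p, (if z p = 0 then (1 : ℝ) else 0) = 1 / (2 : ℝ) ^ k * ∑ y : Vec k, sg (y ⬝ᵥ z p) := by
    intro p
    rw [sum_sg_linear, Fintype.card_fin]
    split_ifs
    · field_simp
    · ring
  have h2 : (if ∀ p, z p = 0 then (1 : ℝ) else 0) = ∏ p, if z p = 0 then (1 : ℝ) else 0 := by
    rw [Finset.prod_ite_zero]
    simp
  rw [h2]
  simp only [h1]
  rw [Finset.prod_mul_distrib, Finset.prod_const, Finset.card_univ]
  congr 1
  have h3 := Finset.prod_univ_sum (fun _ : P => (Finset.univ : Finset (Vec k)))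
    (fun p y => sg (y ⬝ᵥ z p))
  rw [Fintype.piFinset_univ] at h3
  rw [h3]
  refine Finset.sum_congr rfl fun y _ => ?_
  rw [sg_sum]

open Classical in
/-- the summand -/
noncomputable def Gs (e : S) (c : G) (s : Fin k → S) (D : Ix k → ℕ) : ℝ :=
  (if IndT e s (supp D) then 1 else 0) * (Fs e c s (fun u => cl (D u)) * symb PhiK D)

open Classical in
/-- the number of independent tuples -/
theorem ident {e : S} {m : ℕ} (hm : Squarefree m) (h30 : Nat.Coprime m 30) :
    (∑ v : Fin k → S × (m.primeFactors → ZMod 2),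
      if (∀ i, v i ∈ V e m) ∧ IndV (dvec e m) v then (1 : ℝ) else 0) =
    (1 / (2 : ℝ) ^ k) ^ m.primeFactors.card *
      ∑ s : Fin k → S, ∑ D ∈ tupA (Ix k) m, Gs e (cl m) s D := by
  have h1 : (∑ v : Fin k → S × (m.primeFactors → ZMod 2),
      if (∀ i, v i ∈ V e m) ∧ IndV (dvec e m) v then (1 : ℝ) else 0) =
      ∑ s : Fin k → S, ∑ x : m.primeFactors → Vec k,
        if (∀ i, vOf s x i ∈ V e m) ∧ IndV (dvec e m) (vOf s x) then (1 : ℝ) else 0 := by
    rw [← (Equiv.arrowProdEquivProdArrow (Fin k) (fun _ => S)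
      (fun _ => m.primeFactors → ZMod 2)).symm.sum_comp, Fintype.sum_prod_type]
    refine Finset.sum_congr rfl fun s _ => ?_
    rw [← (Equiv.piComm (fun (_ : m.primeFactors) (_ : Fin k) => ZMod 2)).sum_comp]
    rfl
  rw [h1, Finset.mul_sum]
  refine Finset.sum_congr rfl fun s _ => ?_
  rw [← sum_Dc hm, Finset.mul_sum,
    ← (Equiv.arrowProdEquivProdArrow (m.primeFactors) (fun _ => Vec k)
      (fun _ => Vec k)).symm.sum_comp, Fintype.sum_prod_type]
  refine Finset.sum_congr rfl fun x _ => ?_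
  have h2 : (if (∀ i, vOf s x i ∈ V e m) ∧ IndV (dvec e m) (vOf s x) then (1 : ℝ) else 0) =
      (if IndV (dvec e m) (vOf s x) then (1 : ℝ) else 0) *
      ((if ∀ i, inL e (cl m) (s i) (∑ p, x p i • cl (p : ℕ)) then 1 else 0) *
      (if ∀ p, (fun i => hp e m p (vOf s x i)) = (0 : Vec k) then 1 else 0)) := by
    have h3 : (∀ i, vOf s x i ∈ V e m) ↔
        (∀ i, inL e (cl m) (s i) (∑ p, x p i • cl (p : ℕ))) ∧
        ∀ p, (fun i => hp e m p (vOf s x i)) = (0 : Vec k) := by
      constructor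
      · intro h
        refine ⟨fun i => ?_, fun p => ?_⟩
        · have := (Submodule.mem_inf.1 (h i)).2
          exact this
        · funext i
          have := (Submodule.mem_inf.1 (h i)).1
          rw [Submodule.mem_iInf] at this
          exact this p
      · rintro ⟨h4, h5⟩ i
        refine Submodule.mem_inf.2 ⟨?_, h4 i⟩
        rw [Submodule.mem_iInf]
        intro p
        exact congrFun (h5 p) i
    have h4 : ∀ A B C F : Prop, (F ↔ B ∧ C) → (if F ∧ A then (1 : ℝ) else 0) =
        (if A then 1 else 0) * ((if B then 1 else 0) * (if C then 1 else 0)) := by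
      intro A B C F hF
      by_cases hA : A <;> by_cases hB : B <;> by_cases hC : C <;> simp [hA, hB, hC, hF]
    have h5 := h4 (IndV (dvec e m) (vOf s x))
      (∀ i, inL e (cl m) (s i) (∑ p, x p i • cl (p : ℕ)))
      (∀ p, (fun i => hp e m p (vOf s x i)) = (0 : Vec k)) _ h3
    convert h5
  rw [h2, ind_zero, Fintype.card_coe]
  rw [Finset.mul_sum, Finset.mul_sum, Finset.mul_sum]
  refine Finset.sum_congr rfl fun y _ => ?_
  set c : m.primeFactors → Ix k := fun p => (x p, y p) with hc
  have e1 : (Equiv.arrowProdEquivProdArrow (m.primeFactors) (fun _ => Vec k)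
      (fun _ => Vec k)).symm (x, y) = c := rfl
  rw [e1]
  have h4 : (∑ p, y p ⬝ᵥ fun i => hp e m p (vOf s x i)) =
      AF e s (fun u => cl (Dc c u)) + ∑ p : m.primeFactors, ∑ q : m.primeFactors,
        if q = p then 0 else PhiK (c q) (c p) * lg q p := expo h30 e s c
  have h5 : ∀ i, GF (fun u => cl (Dc c u)) i = ∑ p, x p i • cl (p : ℕ) := by
    intro i
    exact sum_cl_Dc h30 c (fun u g => u.1 i • g) (fun u => smul_zero _)
      (fun u a b => smul_add _ _ _)
  have h6 : IndV (dvec e m) (vOf s x) ↔ IndT e s (supp (Dc c)) := IndV_iff e s c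
  unfold Gs Fs
  rw [h4, sg_add, ← symb_Dc PhiK PhiK_self c]
  simp only [h5, h6]
  ring

end Vale.Agent.P017.H260
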