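import Vale.Agent.P017.H509.Defs
import Vale.Agent.P014.H580.J1

/-!
# Interface between the analytic part and the combinatorial part: definitions
-/

namespace Vale.Agent.P017.H260

open Finset Vale.Agent.P017.H509

export Vale.Agent.P014.H580 (J)

variable {ι : Type*} [Fintype ι] [DecidableEq ι]

/-- the factorisations of `n` indexed by `ι` whose set of indices with `D u ≠ 1` is `T` -/
noncomputable def tupS (T : Finset ι) (n : ℕ) : Finset (ι → ℕ) :=
  (Fintype.piFinset fun _ => n.divisors).filter fun D => ∏ u, D u = n ∧ ∀ u, D u ≠ 1 ↔ u ∈ T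

omit [DecidableEq ι] in
/-- the product of the symbols -/
noncomputable def symb (P : ι → ι → ZMod 2) (D : ι → ℕ) : ℝ :=
  ∏ u, ∏ v, if P u v = 1 then J (D u) (D v) else 1

/-- the mean of `F` over the tuples of classes supported on `T` with sum `c` -/
noncomputable def meanC (T : Finset ι) (c : G) (F : (ι → G) → ℝ) : ℝ :=
  (∑ g ∈ univ.filter (fun g : ι → G => (∀ u, u ∉ T → g u = 0) ∧ ∑ u, g u = c), F g) /
    16 ^ (T.card - 1)

end Vale.Agent.P017.H260
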