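import Vale.Agent.P017.H260.Pair
import Vale.Agent.P017.H260.T1def

/-!
# Vanishing of the means
-/

namespace Vale.Agent.P017.H260

open Finset Vale.Agent.P017.H509

theorem pr_add_right (s : S) (g g' : G) : pr s (g + g') = pr s g + pr s g' := by
  simp only [pr, Prod.fst_add, Prod.snd_add]; ring

theorem pr_zero_right (s : S) : pr s 0 = 0 := by
  simp [pr]

theorem pr_add_left (s s' : S) (g : G) : pr (s + s') g = pr s g + pr s' g := by
  simp only [pr, Prod.fst_add, Prod.snd_add]; ring

theorem pr_zero_left (g : G) : pr 0 g = 0 := by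
  simp [pr]

theorem pr_smul_left (a : ZMod 2) (s : S) (g : G) : pr (a • s) g = a * pr s g := by
  simp only [pr, Prod.smul_fst, Prod.smul_snd, smul_eq_mul]; ring

theorem pr_smul_right (a : ZMod 2) (s : S) (g : G) : pr s (a • g) = a * pr s g := by
  simp only [pr, Prod.smul_fst, Prod.smul_snd, smul_eq_mul]; ring

theorem pr_sum_left {κ : Type*} (t : Finset κ) (f : κ → S) (g : G) :
    pr (∑ i ∈ t, f i) g = ∑ i ∈ t, pr (f i) g := by
  classical
  induction t using Finset.induction_on with
  | empty => simp [pr_zero_left]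
  | insert i t hi ih => rw [Finset.sum_insert hi, Finset.sum_insert hi, pr_add_left, ih]

theorem pr_sum_right {κ : Type*} (t : Finset κ) (s : S) (f : κ → G) :
    pr s (∑ i ∈ t, f i) = ∑ i ∈ t, pr s (f i) := by
  classical
  induction t using Finset.induction_on with
  | empty => simp [pr_zero_right]
  | insert i t hi ih => rw [Finset.sum_insert hi, Finset.sum_insert hi, pr_add_right, ih]

theorem pr_nondeg (s : S) (hs : s ≠ 0) : ∃ δ : G, pr s δ = 1 := by
  revert s; decide

variable {k : ℕ}

/-- the classes of the `k` vectors -/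
def GF (g : Ix k → G) (i : Fin k) : G := ∑ u, u.1 i • g u

/-- the linear exponent -/
def AF (e : S) (s : Fin k → S) (g : Ix k → G) : ZMod 2 :=
  ∑ u, ((∑ i, u.2 i * pr (s i) (g u)) + QK u * pr e (g u))

open Classical in
/-- the weight attached to the classes -/
noncomputable def Fs (e : S) (c : G) (s : Fin k → S) (g : Ix k → G) : ℝ :=
  (if ∀ i, inL e c (s i) (GF g i) then 1 else 0) * sg (AF e s g)

/-- the weight including reciprocity -/
noncomputable def FT (e : S) (c : G) (s : Fin k → S) (g : Ix k → G) : ℝ :=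
  Fs e c s g * sg (Tq PhiK g)

theorem GF_shift (g : Ix k → G) (a : Ix k) (δ : G) (i : Fin k) :
    GF (g + Pi.single a δ) i = GF g i + a.1 i • δ := by
  unfold GF
  simp only [Pi.add_apply, smul_add, Finset.sum_add_distrib]
  congr 1
  rw [Finset.sum_eq_single a]
  · rw [Pi.single_eq_same]
  · intro b _ hb
    rw [Pi.single_eq_of_ne hb, smul_zero]
  · intro h; exact absurd (Finset.mem_univ a) h

theorem AF_shift (e : S) (s : Fin k → S) (g : Ix k → G) (a : Ix k) (δ : G) :
    AF e s (g + Pi.single a δ) = AF e s g + ((∑ i, a.2 i * pr (s i) δ) + QK a * pr e δ) := by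
  unfold AF
  simp only [Pi.add_apply, pr_add_right, mul_add, Finset.sum_add_distrib]
  have h1 : ∑ u : Ix k, ∑ i, u.2 i * pr (s i) ((Pi.single a δ : Ix k → G) u) = ∑ i, a.2 i * pr (s i) δ := by
    rw [Finset.sum_eq_single a]
    · rw [Pi.single_eq_same]
    · intro b _ hb
      refine Finset.sum_eq_zero fun i _ => ?_
      rw [Pi.single_eq_of_ne hb, pr_zero_right, mul_zero]
    · intro h; exact absurd (Finset.mem_univ a) h
  have h2 : ∑ u : Ix k, QK u * pr e ((Pi.single a δ : Ix k → G) u) = QK a * pr e δ := by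
    rw [Finset.sum_eq_single a]
    · rw [Pi.single_eq_same]
    · intro b _ hb
      rw [Pi.single_eq_of_ne hb, pr_zero_right, mul_zero]
    · intro h; exact absurd (Finset.mem_univ a) h
  rw [h1, h2]
  ring

theorem sum_single (a : Ix k) (δ : G) : ∑ u, (Pi.single a δ : Ix k → G) u = δ := by
  rw [Finset.sum_eq_single a]
  · rw [Pi.single_eq_same]
  · intro b _ hb
    rw [Pi.single_eq_of_ne hb]
  · intro h; exact absurd (Finset.mem_univ a) h

open Classical in
/-- the tuples of classes in the mean -/
noncomputable def cls (U : Finset (Ix k)) (c : G) : Finset (Ix k → G) :=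
  univ.filter (fun g : Ix k → G => (∀ u, u ∉ U → g u = 0) ∧ ∑ u, g u = c)

theorem mem_cls {U : Finset (Ix k)} {c : G} {g : Ix k → G} :
    g ∈ cls U c ↔ (∀ u, u ∉ U → g u = 0) ∧ ∑ u, g u = c := by
  unfold cls; simp

theorem supp_shift {U : Finset (Ix k)} {g : Ix k → G} (hg : ∀ u, u ∉ U → g u = 0) {a : Ix k}
    (ha : a ∈ U) (δ : G) : ∀ u, u ∉ U → (g + (Pi.single a δ : Ix k → G)) u = 0 := by
  intro u hu
  have hne : u ≠ a := by rintro rfl; exact hu ha
  rw [Pi.add_apply, hg u hu, Pi.single_eq_of_ne hne, add_zero]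

theorem Gadd_self (δ : G) : δ + δ = 0 := by
  revert δ; decide

/-- a sum vanishes if a translation changes the sign -/
theorem sum_vanish {U : Finset (Ix k)} {c : G} (F : (Ix k → G) → ℝ) (t : Ix k → G)
    (h1 : ∀ g ∈ cls U c, g + t ∈ cls U c) (h2 : ∀ g ∈ cls U c, F (g + t) = - F g) :
    ∑ g ∈ cls U c, F g = 0 := by
  have ht : t + t = 0 := by funext u; exact Gadd_self _
  have h3 : ∑ g ∈ cls U c, F g = ∑ g ∈ cls U c, F (g + t) := by
    refine Finset.sum_bij (fun g _ => g + t) h1 ?_ ?_ ?_
    · intro a _ b _ h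
      exact add_right_cancel h
    · intro g hg
      exact ⟨g + t, h1 g hg, by rw [add_assoc, ht, add_zero]⟩
    · intro g _
      rw [add_assoc, ht, add_zero]
  rw [Finset.sum_congr rfl h2, Finset.sum_neg_distrib] at h3
  linarith

theorem PhiK_symm {U : Finset (Ix k)} (hU : Unl U) : ∀ u ∈ U, ∀ v ∈ U, PhiK u v = PhiK v u :=
  fun u hu v hv => (PhiK_symm_iff u v).2 (hU u hu v hv)

/-- case (b): a vector `b` with constant product with the first components -/
theorem mean_b (e : S) (c : G) (s : Fin k → S) {U : Finset (Ix k)} (hU : Unl U) (b : Vec k)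
    (u0 : Ix k) (hu0 : u0 ∈ U) (hu1 : (u0.1, u0.2 + b) ∈ U)
    (hs : ∑ i, b i • s i + (b ⬝ᵥ u0.1) • e ≠ 0) :
    ∑ g ∈ cls U c, FT e c s g = 0 := by
  obtain ⟨δ, hδ⟩ := pr_nondeg _ hs
  set u1 : Ix k := (u0.1, u0.2 + b) with hu1def
  refine sum_vanish _ (Pi.single u0 δ + Pi.single u1 δ) ?_ ?_
  · intro g hg
    rw [mem_cls] at hg ⊢
    rw [← add_assoc]
    refine ⟨supp_shift (supp_shift hg.1 hu0 δ) hu1 δ, ?_⟩
    simp only [Pi.add_apply, Finset.sum_add_distrib]
    rw [hg.2, sum_single, sum_single, add_assoc, Gadd_self, add_zero]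
  · intro g hg
    rw [mem_cls] at hg
    have hT : Tq PhiK (g + (Pi.single u0 δ + Pi.single u1 δ)) = Tq PhiK g := by
      rw [← add_assoc, Tq_shift PhiK U PhiK_self (PhiK_symm hU) _ (supp_shift hg.1 hu0 δ) u1 hu1,
        Tq_shift PhiK U PhiK_self (PhiK_symm hU) _ hg.1 u0 hu0]
      have h1 : ∀ v, PhiK u1 v = PhiK u0 v := fun v => rfl
      have h2 : ∑ v, PhiK u1 v * ((g + (Pi.single u0 δ : Ix k → G)) v).1 = ∑ v, PhiK u0 v * (g v).1 := by
        refine Finset.sum_congr rfl fun v _ => ?_
        rw [h1]
        by_cases hv : v = u0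
        · subst hv; rw [PhiK_self, zero_mul, zero_mul]
        · rw [Pi.add_apply, Pi.single_eq_of_ne hv, add_zero]
      rw [h2, add_assoc, CharTwo.add_self_eq_zero, add_zero]
    have hG : ∀ i, GF (g + (Pi.single u0 δ + Pi.single u1 δ)) i = GF g i := by
      intro i
      rw [← add_assoc, GF_shift, GF_shift, add_assoc]
      show _ + (u0.1 i • δ + u0.1 i • δ) = _
      rw [Gadd_self, add_zero]
    have hA : AF e s (g + (Pi.single u0 δ + Pi.single u1 δ)) = AF e s g + 1 := by
      rw [← add_assoc, AF_shift, AF_shift, add_assoc, ← hδ]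
      congr 1
      rw [pr_add_left, pr_sum_left, pr_smul_left]
      have h1 : QK u1 = QK u0 + u0.1 ⬝ᵥ b := by
        rw [hu1def]; unfold QK; exact dotProduct_add _ _ _
      rw [h1, dotProduct_comm b]
      have h2 : ∑ i, u1.2 i * pr (s i) δ = ∑ i, u0.2 i * pr (s i) δ + ∑ i, pr (b i • s i) δ := by
        rw [← Finset.sum_add_distrib]
        refine Finset.sum_congr rfl fun i _ => ?_
        rw [pr_smul_left, hu1def]
        simp only [Pi.add_apply]
        ring
      rw [h2]
      generalize ∑ i, u0.2 i * pr (s i) δ = x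
      generalize ∑ i, pr (b i • s i) δ = y
      generalize QK u0 = z
      generalize pr e δ = w
      generalize u0.1 ⬝ᵥ b = t
      revert x y z w t; decide
    unfold FT Fs
    rw [hT, hA, sg_add, sg_one]
    simp only [hG]
    ring

/-- case (a): the bilinear form does not vanish -/
theorem mean_a (e : S) (c : G) (s : Fin k → S) {U : Finset (Ix k)} (hU : Unl U)
    (hc : U.card = 2 ^ k) (a b d : Ix k) (ha : a ∈ U) (hb : b ∈ U) (hd : d ∈ U)
    (habd : (a + b).1 ⬝ᵥ (a + d).2 = 1) :
    ∑ g ∈ cls U c, FT e c s g = 0 := by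
  set δ : G := (1, 0, 0, 0) with hδ
  have hδ1 : δ.1 = 1 := rfl
  set w : Ix k := a + b + d with hw
  have hwU : w ∈ U := mem_fourth hU hc ha hb hd
  set t : Ix k → G := Pi.single a δ + Pi.single b δ + Pi.single d δ + Pi.single w δ with ht
  have hgt : ∀ g : Ix k → G, g + t = g + Pi.single a δ + Pi.single b δ + Pi.single d δ +
      Pi.single w δ := by
    intro g; rw [ht]; abel
  refine sum_vanish _ t ?_ ?_
  · intro g hg
    rw [mem_cls] at hg ⊢
    rw [hgt]
    refine ⟨supp_shift (supp_shift (supp_shift (supp_shift hg.1 ha δ) hb δ) hd δ) hwU δ, ?_⟩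
    simp only [Pi.add_apply, Finset.sum_add_distrib]
    rw [hg.2, sum_single, sum_single, sum_single, sum_single]
    have : δ + δ = 0 := Gadd_self δ
    rw [add_assoc (c + δ), this, add_zero, add_assoc, this, add_zero]
  · intro g hg
    rw [mem_cls] at hg
    have e1 := supp_shift hg.1 ha δ
    have e2 := supp_shift e1 hb δ
    have e3 := supp_shift e2 hd δ
    have hT : Tq PhiK (g + t) = Tq PhiK g + 1 := by
      rw [hgt, Tq_shift PhiK U PhiK_self (PhiK_symm hU) _ e3 w hwU,
        Tq_shift PhiK U PhiK_self (PhiK_symm hU) _ e2 d hd,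
        Tq_shift PhiK U PhiK_self (PhiK_symm hU) _ e1 b hb,
        Tq_shift PhiK U PhiK_self (PhiK_symm hU) _ hg.1 a ha, hδ1]
      simp only [one_mul]
      have hs : ∀ (p : Ix k) (h : Ix k → G) (x : Ix k),
          ∑ v, PhiK x v * ((h + (Pi.single p δ : Ix k → G)) v).1 = ∑ v, PhiK x v * (h v).1 + PhiK x p := by
        intro p h x
        simp only [Pi.add_apply, Prod.fst_add, mul_add, Finset.sum_add_distrib]
        congr 1
        rw [Finset.sum_eq_single p]
        · rw [Pi.single_eq_same, hδ1, mul_one]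
        · intro b _ hb
          rw [Pi.single_eq_of_ne hb]
          simp
        · intro h; exact absurd (Finset.mem_univ p) h
      simp only [hs]
      have h4 : ∑ v, PhiK w v * (g v).1 = ∑ v, PhiK a v * (g v).1 + ∑ v, PhiK b v * (g v).1 +
          ∑ v, PhiK d v * (g v).1 := by
        rw [← Finset.sum_add_distrib, ← Finset.sum_add_distrib]
        refine Finset.sum_congr rfl fun v _ => ?_
        have : PhiK w v = PhiK a v + PhiK b v + PhiK d v := by
          unfold PhiK
          rw [hw, ← dotProduct_add, ← dotProduct_add]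
          congr 1
          have := vadd_self v.1
          rw [Prod.fst_add, Prod.fst_add]
          calc a.1 + b.1 + d.1 + v.1 = a.1 + b.1 + d.1 + v.1 + (v.1 + v.1) := by
                rw [this, add_zero]
            _ = _ := by abel
        rw [this]; ring
      rw [h4]
      have h5 : PhiK b a + PhiK d a + PhiK d b + (PhiK w a + PhiK w b + PhiK w d) = 1 := by
        rw [← habd]
        have hQ := hU a ha b hb
        unfold PhiK
        rw [hw]
        unfold QK at hQ
        simp only [Prod.fst_add, Prod.snd_add, dotProduct_add, add_dotProduct] at hQ ⊢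
        rw [dotProduct_comm a.1 a.2, dotProduct_comm b.1 a.2, dotProduct_comm a.1 b.2,
          dotProduct_comm b.1 b.2] at hQ
        rw [dotProduct_comm a.1 a.2, dotProduct_comm b.1 a.2, dotProduct_comm a.1 d.2,
          dotProduct_comm b.1 d.2]
        generalize a.2 ⬝ᵥ a.1 = x1 at *
        generalize a.2 ⬝ᵥ b.1 = x2 at *
        generalize a.2 ⬝ᵥ d.1 = x3 at *
        generalize b.2 ⬝ᵥ a.1 = x4 at *
        generalize b.2 ⬝ᵥ b.1 = x5 at *
        generalize b.2 ⬝ᵥ d.1 = x6 at *
        generalize d.2 ⬝ᵥ a.1 = x7 at *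
        generalize d.2 ⬝ᵥ b.1 = x8 at *
        generalize d.2 ⬝ᵥ d.1 = x9 at *
        clear * - hQ
        revert x1 x2 x3 x4 x5 x6 x7 x8 x9
        decide
      generalize PhiK b a = x1 at *
      generalize PhiK d a = x2 at *
      generalize PhiK d b = x3 at *
      generalize PhiK w a = x4 at *
      generalize PhiK w b = x5 at *
      generalize PhiK w d = x6 at *
      generalize ∑ v, PhiK a v * (g v).1 = y1
      generalize ∑ v, PhiK b v * (g v).1 = y2
      generalize ∑ v, PhiK d v * (g v).1 = y3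
      generalize Tq PhiK g = y4
      have h6 : y4 + y1 + (y2 + x1) + (y3 + x2 + x3) + (y1 + y2 + y3 + x4 + x5 + x6) =
          y4 + (x1 + x2 + x3 + (x4 + x5 + x6)) + (y1 + y1) + (y2 + y2) + (y3 + y3) := by ring
      rw [h6, h5, CharTwo.add_self_eq_zero, CharTwo.add_self_eq_zero, CharTwo.add_self_eq_zero,
        add_zero, add_zero, add_zero]
    have hG : ∀ i, GF (g + t) i = GF g i := by
      intro i
      rw [hgt, GF_shift, GF_shift, GF_shift, GF_shift]
      have h1 : w.1 i = a.1 i + b.1 i + d.1 i := rfl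
      rw [h1, add_smul, add_smul]
      have h2 : a.1 i • δ + b.1 i • δ + d.1 i • δ + (a.1 i • δ + b.1 i • δ + d.1 i • δ) = 0 :=
        Gadd_self _
      calc _ = GF g i + (a.1 i • δ + b.1 i • δ + d.1 i • δ + (a.1 i • δ + b.1 i • δ + d.1 i • δ)) := by
            abel
        _ = _ := by rw [h2, add_zero]
    have hA : AF e s (g + t) = AF e s g := by
      rw [hgt, AF_shift, AF_shift, AF_shift, AF_shift]
      have h1 : ∑ i, w.2 i * pr (s i) δ = ∑ i, a.2 i * pr (s i) δ + ∑ i, b.2 i * pr (s i) δ +
          ∑ i, d.2 i * pr (s i) δ := by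
        rw [← Finset.sum_add_distrib, ← Finset.sum_add_distrib]
        refine Finset.sum_congr rfl fun i _ => ?_
        have : w.2 i = a.2 i + b.2 i + d.2 i := rfl
        rw [this]; ring
      have h2 : QK w = QK a + QK b + QK d := by
        have q1 := hU a ha b hb
        have q2 := hU a ha d hd
        have q3 := hU b hb d hd
        rw [hw, QK_add, QK_add, BK_add_left]
        rw [QK_add] at q1 q2 q3
        generalize QK a = x at *
        generalize QK b = y at *
        generalize QK d = z at *
        generalize BK a b = p at *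
        generalize BK a d = q at *
        generalize BK b d = r at *
        clear * - q1 q2 q3
        revert x y z p q r; decide
      rw [h1, h2]
      generalize ∑ i, a.2 i * pr (s i) δ = x
      generalize ∑ i, b.2 i * pr (s i) δ = y
      generalize ∑ i, d.2 i * pr (s i) δ = z
      generalize AF e s g = o
      generalize QK a = x'
      generalize QK b = y'
      generalize QK d = z'
      generalize pr e δ = p
      clear * -
      revert x y z o x' y' z' p; decide
    unfold FT Fs
    rw [hT, hA, sg_add, sg_one]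
    simp only [hG]
    ring

end Vale.Agent.P017.H260
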