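import Vale.Agent.P017.H260.Mean

/-!
# The means which do not vanish
-/

namespace Vale.Agent.P017.H260

open Finset Vale.Agent.P017.H509

theorem H3 : ∀ (e : S) (c : G), Good e c → ∀ (s : S) (g : G), inL e c s g →
    pr s c + pr e g + g.1 * (c.1 + g.1) = 0 := by
  decide +kernel

theorem card_L : ∀ (e : S) (c : G), Good e c →
    (univ.filter fun v : S × G => inL e c v.1 v.2).card = 16 := by
  decide +kernel

variable {k : ℕ}

/-- the set of indices with second component `y` -/
def Uy (y : Vec k) : Finset (Ix k) := univ.image fun x : Vec k => (x, y)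

theorem mem_Uy {y : Vec k} {u : Ix k} : u ∈ Uy y ↔ u.2 = y := by
  unfold Uy
  rw [Finset.mem_image]
  constructor
  · rintro ⟨x, _, rfl⟩; rfl
  · intro h; exact ⟨u.1, Finset.mem_univ _, Prod.ext rfl h.symm⟩

theorem card_Uy (y : Vec k) : (Uy y).card = 2 ^ k := by
  unfold Uy
  rw [Finset.card_image_of_injective _ (fun a b h => (Prod.ext_iff.1 h).1)]
  simp

theorem unl_Uy (y : Vec k) : Unl (Uy y) := by
  intro u hu v hv
  rw [mem_Uy] at hu hv
  unfold QK
  rw [Prod.snd_add, hu, hv, vadd_self, dotProduct_zero]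

theorem Uy_inj {y z : Vec k} (h : Uy y = Uy z) : y = z := by
  have h1 : ((0, y) : Ix k) ∈ Uy y := mem_Uy.2 rfl
  rw [h, mem_Uy] at h1
  exact h1

/-- extension of a family of classes -/
def ext (y : Vec k) (h : Vec k → G) : Ix k → G := fun u => if u.2 = y then h u.1 else 0

theorem sum_ext {M : Type*} [AddCommMonoid M] (y : Vec k) (h : Vec k → G) (f : Ix k → G → M)
    (hf : ∀ u, f u 0 = 0) : ∑ u, f u (ext y h u) = ∑ x, f (x, y) (h x) := by
  rw [Fintype.sum_prod_type]
  refine Finset.sum_congr rfl fun x _ => ?_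
  rw [Finset.sum_eq_single y]
  · unfold ext; rw [if_pos rfl]
  · intro z _ hz
    unfold ext
    rw [if_neg hz, hf]
  · intro h; exact absurd (Finset.mem_univ _) h

theorem sum_cls_Uy (y : Vec k) (c : G) (F : (Ix k → G) → ℝ) :
    ∑ g ∈ cls (Uy y) c, F g = ∑ h ∈ univ.filter (fun h : Vec k → G => ∑ x, h x = c), F (ext y h) := by
  symm
  refine Finset.sum_bij (fun h _ => ext y h) ?_ ?_ ?_ ?_
  · intro h hh
    rw [Finset.mem_filter] at hh
    rw [mem_cls]
    refine ⟨?_, ?_⟩
    · intro u hu
      rw [mem_Uy] at hu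
      unfold ext; rw [if_neg hu]
    · have := sum_ext y h (fun _ g => g) (fun _ => rfl)
      rw [this]; exact hh.2
  · intro a _ b _ hab
    funext x
    have := congrFun hab (x, y)
    simpa [ext] using this
  · intro g hg
    rw [mem_cls] at hg
    have hg' : ext y (fun x => g (x, y)) = g := by
      funext u
      unfold ext
      split_ifs with h
      · rw [← h]
      · exact (hg.1 u (by rwa [mem_Uy])).symm
    refine ⟨fun x => g (x, y), ?_, hg'⟩
    rw [Finset.mem_filter]
    refine ⟨Finset.mem_univ _, ?_⟩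
    have := sum_ext y (fun x => g (x, y)) (fun _ g => g) (fun _ => rfl)
    rw [← this, hg']; exact hg.2
  · intro _ _; rfl

/-- the classes of the vectors -/
def gam (h : Vec k → G) (i : Fin k) : G := ∑ x : Vec k, x i • h x

theorem GF_ext (y : Vec k) (h : Vec k → G) (i : Fin k) : GF (ext y h) i = gam h i :=
  sum_ext y h (fun u g => u.1 i • g) (fun _ => smul_zero _)

theorem AF_ext (e : S) (s : Fin k → S) (y : Vec k) (h : Vec k → G) :
    AF e s (ext y h) = (∑ i, y i * pr (s i) (∑ x, h x)) + ∑ i, y i * pr e (gam h i) := by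
  have h1 := sum_ext y h (fun u g => (∑ i, u.2 i * pr (s i) g) + QK u * pr e g)
    (fun u => by simp [pr_zero_right])
  unfold AF
  rw [h1, Finset.sum_add_distrib]
  congr 1
  · rw [Finset.sum_comm]
    refine Finset.sum_congr rfl fun i _ => ?_
    rw [pr_sum_right, Finset.mul_sum]
  · unfold gam QK dotProduct
    simp only [pr_sum_right, pr_smul_right, Finset.mul_sum, Finset.sum_mul]
    rw [Finset.sum_comm]
    refine Finset.sum_congr rfl fun i _ => Finset.sum_congr rfl fun x _ => ?_
    ring

theorem Tq_ext (y : Vec k) (h : Vec k → G) :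
    Tq PhiK (ext y h) = (∑ i, y i * (gam h i).1) * ((∑ x, h x).1 + ∑ i, y i * (gam h i).1) := by
  have h1 : Tq PhiK (ext y h) = ∑ u : Ix k, ∑ v : Ix k,
      (y ⬝ᵥ u.1) * (1 + y ⬝ᵥ v.1) * ((ext y h u).1 * (ext y h v).1) := by
    rw [sum_pairs]
    · unfold Tq
      refine Finset.sum_congr rfl fun u _ => Finset.sum_congr rfl fun v _ => ?_
      split_ifs with huv
      · by_cases hv : v.2 = y
        · have : PhiK u v = y ⬝ᵥ u.1 + y ⬝ᵥ v.1 := by
            unfold PhiK; rw [hv, dotProduct_add]
          rw [this]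
          generalize y ⬝ᵥ u.1 = a
          generalize y ⬝ᵥ v.1 = b
          generalize (ext y h u).1 = p
          generalize (ext y h v).1 = q
          clear * -
          revert a b p q; decide
        · have : ext y h v = 0 := by unfold ext; rw [if_neg hv]
          rw [this, show (0 : G).1 = 0 from rfl]
          ring
      · rfl
    · intro u
      generalize y ⬝ᵥ u.1 = a
      generalize (ext y h u).1 = p
      clear * -
      revert a p; decide
  have h2 : ∀ u v : Ix k, (y ⬝ᵥ u.1) * (1 + y ⬝ᵥ v.1) * ((ext y h u).1 * (ext y h v).1) =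
      ((y ⬝ᵥ u.1) * (ext y h u).1) * ((1 + y ⬝ᵥ v.1) * (ext y h v).1) := by
    intro u v; ring
  simp only [h2] at h1
  rw [h1, ← Finset.sum_mul_sum]
  have h3 : ∑ u : Ix k, (y ⬝ᵥ u.1) * (ext y h u).1 = ∑ i, y i * (gam h i).1 := by
    rw [sum_ext y h (fun u g => (y ⬝ᵥ u.1) * g.1) (fun _ => mul_zero _)]
    unfold gam dotProduct
    simp only [Finset.sum_mul, Prod.fst_sum, Finset.mul_sum]
    rw [Finset.sum_comm]
    refine Finset.sum_congr rfl fun i _ => Finset.sum_congr rfl fun x _ => ?_
    simp only [Prod.smul_fst, smul_eq_mul]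
    ring
  have h4 : ∑ u : Ix k, (1 + y ⬝ᵥ u.1) * (ext y h u).1 = (∑ x, h x).1 + ∑ i, y i * (gam h i).1 := by
    simp only [add_mul, one_mul, Finset.sum_add_distrib]
    rw [h3]
    congr 1
    rw [sum_ext y h (fun _ g => g.1) (fun _ => rfl), Prod.fst_sum]
  rw [h3, h4]

open Classical in
theorem FT_ext {e : S} {c : G} (hgood : Good e c) (s : Fin k → S) (y : Vec k) (h : Vec k → G)
    (hh : ∑ x, h x = c) :
    FT e c s (ext y h) = if ∀ i, inL e c (s i) (gam h i) then 1 else 0 := by
  unfold FT Fs
  simp only [GF_ext]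
  split_ifs with hL
  · rw [one_mul, ← sg_add]
    have : AF e s (ext y h) + Tq PhiK (ext y h) = 0 := by
      rw [AF_ext, Tq_ext, hh]
      have h1 : (∑ i, y i * (gam h i).1) * (c.1 + ∑ i, y i * (gam h i).1) =
          ∑ i, y i * ((gam h i).1 * (c.1 + (gam h i).1)) := by
        have h2 : ∀ z : ZMod 2, z * (c.1 + z) = z * (c.1 + 1) := by
          intro z; generalize c.1 = w; revert z w; decide
        rw [h2, Finset.sum_mul]
        refine Finset.sum_congr rfl fun i _ => ?_
        rw [h2 (gam h i).1]; ring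
      rw [h1, ← Finset.sum_add_distrib, ← Finset.sum_add_distrib]
      refine Finset.sum_eq_zero fun i _ => ?_
      rw [← mul_add, ← mul_add, H3 e c hgood _ _ (hL i), mul_zero]
    rw [this, sg_zero]
  · ring

/-- the classes as a homomorphism -/
def Psi (k : ℕ) : (Vec k → G) →+ (G × (Fin k → G)) where
  toFun h := (∑ x, h x, gam h)
  map_zero' := by
    refine Prod.ext ?_ ?_
    · simp
    · funext i; simp [gam]
  map_add' := by
    intro h h'
    refine Prod.ext ?_ ?_
    · simp [Finset.sum_add_distrib]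
    · funext i; simp [gam, Finset.sum_add_distrib]

theorem Psi_surj (k : ℕ) : Function.Surjective (Psi k) := by
  rintro ⟨c, γ⟩
  have hinj : ∀ i j : Fin k, (Pi.single i 1 : Vec k) = Pi.single j 1 → i = j := by
    intro i j hij
    by_contra hne
    have := congrFun hij i
    rw [Pi.single_eq_same, Pi.single_eq_of_ne hne] at this
    exact absurd this (by decide)
  have hne : ∀ i : Fin k, (Pi.single i 1 : Vec k) ≠ 0 := by
    intro i hi
    have := congrFun hi i
    rw [Pi.single_eq_same, Pi.zero_apply] at this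
    exact absurd this (by decide)
  refine ⟨(Pi.single 0 (c + ∑ i, γ i) : Vec k → G) +
    ∑ i, (Pi.single (Pi.single i 1 : Vec k) (γ i) : Vec k → G), ?_⟩
  have hs : ∀ (a : Vec k) (δ : G), ∑ x, (Pi.single a δ : Vec k → G) x = δ := by
    intro a δ
    rw [Finset.sum_eq_single a]
    · rw [Pi.single_eq_same]
    · intro b _ hb; rw [Pi.single_eq_of_ne hb]
    · intro h; exact absurd (Finset.mem_univ a) h
  have hg : ∀ (a : Vec k) (δ : G) (i : Fin k), gam (Pi.single a δ : Vec k → G) i = a i • δ := by
    intro a δ i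
    unfold gam
    rw [Finset.sum_eq_single a]
    · rw [Pi.single_eq_same]
    · intro b _ hb; rw [Pi.single_eq_of_ne hb, smul_zero]
    · intro h; exact absurd (Finset.mem_univ a) h
  rw [map_add, map_sum]
  refine Prod.ext ?_ ?_
  · show (∑ x, (Pi.single 0 (c + ∑ i, γ i) : Vec k → G) x) + _ = c
    rw [hs, Prod.fst_sum]
    have : ∀ i, (Psi k (Pi.single (Pi.single i 1 : Vec k) (γ i) : Vec k → G)).1 = γ i :=
      fun i => hs _ _
    simp only [this]
    rw [add_assoc, Gadd_self, add_zero]
  · funext j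
    show gam (Pi.single 0 (c + ∑ i, γ i) : Vec k → G) j + _ = γ j
    rw [hg, Pi.zero_apply, zero_smul, zero_add, Prod.snd_sum, Finset.sum_apply]
    have : ∀ i, (Psi k (Pi.single (Pi.single i 1 : Vec k) (γ i) : Vec k → G)).2 j =
        (Pi.single i 1 : Vec k) j • γ i := fun i => hg _ _ _
    simp only [this]
    rw [Finset.sum_eq_single j]
    · rw [Pi.single_eq_same, one_smul]
    · intro b _ hb; rw [Pi.single_eq_of_ne hb.symm, zero_smul]
    · intro h; exact absurd (Finset.mem_univ j) h

theorem card_G : Fintype.card G = 16 := by decide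

/-- the number of elements of the fibres -/
theorem card_fibre (k : ℕ) (z : G × (Fin k → G)) :
    (univ.filter fun h : Vec k → G => Psi k h = z).card * 16 ^ k = 16 ^ (2 ^ k - 1) := by
  have h1 : ∀ w : G × (Fin k → G), (univ.filter fun h : Vec k → G => Psi k h = w).card =
      (univ.filter fun h : Vec k → G => Psi k h = z).card := fun w =>
    AddMonoidHom.card_fiber_eq_of_mem_range (Psi k) (Psi_surj k w) (Psi_surj k z)
  have h2 : ∑ w : G × (Fin k → G), (univ.filter fun h : Vec k → G => Psi k h = w).card =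
      Fintype.card (Vec k → G) := by
    rw [← Finset.card_univ]
    exact (Finset.card_eq_sum_card_fiberwise (f := Psi k) (t := univ)
      (fun _ _ => Finset.mem_coe.2 (Finset.mem_univ _))).symm
  rw [Finset.sum_congr rfl (fun w _ => h1 w), Finset.sum_const, Finset.card_univ,
    Fintype.card_prod, Fintype.card_fun, Fintype.card_fun, Fintype.card_fun, card_G,
    Fintype.card_fin, ZMod.card, smul_eq_mul] at h2
  have h3 : (16 : ℕ) ^ 2 ^ k = 16 * 16 ^ (2 ^ k - 1) := by
    rw [← pow_succ']
    congr 1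
    have : 0 < 2 ^ k := by positivity
    omega
  rw [h3] at h2
  have h4 : 16 * ((univ.filter fun h : Vec k → G => Psi k h = z).card * 16 ^ k) =
      16 * 16 ^ (2 ^ k - 1) := by rw [← h2]; ring
  exact Nat.eq_of_mul_eq_mul_left (by norm_num) h4

/-- the main term -/
theorem mean_c {e : S} {c : G} (hgood : Good e c) (y : Vec k) :
    ∑ s : Fin k → S, ∑ g ∈ cls (Uy y) c, FT e c s g = 16 ^ (2 ^ k - 1) := by
  classical
  have h1 : ∀ s : Fin k → S, ∑ g ∈ cls (Uy y) c, FT e c s g =
      ∑ h ∈ univ.filter (fun h : Vec k → G => ∑ x, h x = c),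
        (if ∀ i, inL e c (s i) (gam h i) then 1 else 0) := by
    intro s
    rw [sum_cls_Uy]
    refine Finset.sum_congr rfl fun h hh => ?_
    rw [Finset.mem_filter] at hh
    exact FT_ext hgood s y h hh.2
  have h2 : ∀ s : Fin k → S, ∑ g ∈ cls (Uy y) c, FT e c s g =
      ∑ γ : Fin k → G, (((univ.filter fun h : Vec k → G => Psi k h = (c, γ)).card : ℕ) : ℝ) *
        (if ∀ i, inL e c (s i) (γ i) then 1 else 0) := by
    intro s
    rw [h1, ← Finset.sum_fiberwise (univ.filter (fun h : Vec k → G => ∑ x, h x = c)) gam]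
    refine Finset.sum_congr rfl fun γ _ => ?_
    rw [Finset.filter_filter]
    have h3 : (univ.filter fun h : Vec k → G => Psi k h = (c, γ)) =
        univ.filter fun h : Vec k → G => ∑ x, h x = c ∧ gam h = γ := by
      ext h
      simp only [Finset.mem_filter, Finset.mem_univ, true_and]
      exact Prod.ext_iff
    rw [h3, Finset.sum_congr rfl (g := fun _ => (if ∀ i, inL e c (s i) (γ i) then (1 : ℝ) else 0)),
      Finset.sum_const, nsmul_eq_mul]
    intro h hh
    rw [Finset.mem_filter] at hh
    rw [hh.2.2]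
  have h4 : ∀ γ : Fin k → G, (((univ.filter fun h : Vec k → G => Psi k h = (c, γ)).card : ℕ) : ℝ) =
      16 ^ (2 ^ k - 1) / 16 ^ k := by
    intro γ
    have := card_fibre k (c, γ)
    rw [eq_div_iff (by positivity)]
    exact_mod_cast this
  simp only [h2, h4]
  have h5 : ∀ (s : Fin k → S) (γ : Fin k → G),
      (if ∀ i, inL e c (s i) (γ i) then (1 : ℝ) else 0) =
        ∏ i, if inL e c (s i) (γ i) then (1 : ℝ) else 0 := by
    intro s γ
    rw [Finset.prod_ite_zero]
    simp
  simp only [h5, ← Finset.mul_sum]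
  have h6 : ∑ s : Fin k → S, ∑ γ : Fin k → G, ∏ i, (if inL e c (s i) (γ i) then (1 : ℝ) else 0) =
      16 ^ k := by
    have h7 : ∑ s : Fin k → S, ∑ γ : Fin k → G, ∏ i, (if inL e c (s i) (γ i) then (1 : ℝ) else 0) =
        ∑ v : Fin k → S × G, ∏ i, (if inL e c (v i).1 (v i).2 then (1 : ℝ) else 0) := by
      rw [← Fintype.sum_prod_type']
      exact Fintype.sum_equiv (Equiv.arrowProdEquivProdArrow _ _ _).symm _ _ (fun _ => rfl)
    rw [h7]
    have h8 := Finset.prod_univ_sum (fun _ : Fin k => (Finset.univ : Finset (S × G)))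
      (fun _ v => if inL e c v.1 v.2 then (1 : ℝ) else 0)
    rw [Fintype.piFinset_univ] at h8
    rw [← h8]
    have h9 : ∑ v : S × G, (if inL e c v.1 v.2 then (1 : ℝ) else 0) = 16 := by
      rw [Finset.sum_boole]
      have := card_L e c hgood
      exact_mod_cast this
    simp only [h9]
    simp
  rw [h6]
  field_simp

end Vale.Agent.P017.H260
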