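import Vale.Agent.P017.H260.Ident
import Vale.Agent.P017.H509.A9

/-!
# The moments of the size of the Selmer type groups
-/

namespace Vale.Agent.P017.H260

open Finset Vale.Agent.P017.H509

variable {k : ℕ}

/-- properties of the factorisations of a squarefree number prime to `30` -/
theorem tupS_props {ι : Type*} [Fintype ι] [DecidableEq ι] {m : ℕ} (hm : Squarefree m)
    (h30 : Nat.Coprime m 30) {T : Finset ι} {D : ι → ℕ} (hD : D ∈ tupS T m) :
    (∀ u, u ∉ T → D u = 1) ∧ (∀ u, D u % 2 = 1) ∧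
      (∀ u v, u ≠ v → Nat.Coprime (D u) (D v)) := by
  unfold tupS at hD
  rw [Finset.mem_filter] at hD
  obtain ⟨_, h2, h3⟩ := hD
  have hdvd : ∀ u, D u ∣ m := fun u => h2 ▸ Finset.dvd_prod_of_mem _ (Finset.mem_univ u)
  refine ⟨fun u hu => ?_, fun u => ?_, fun u v huv => ?_⟩
  · by_contra h
    exact hu ((h3 u).1 h)
  · have h4 : Nat.Coprime (D u) 30 := Nat.Coprime.coprime_dvd_left (hdvd u) h30
    by_contra h
    have h5 : 2 ∣ D u := by omega
    have h6 := Nat.dvd_gcd h5 (by norm_num : 2 ∣ 30)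
    rw [h4] at h6
    omega
  · apply Nat.coprime_of_squarefree_mul
    refine hm.squarefree_of_dvd ?_
    rw [← h2, ← Finset.mul_prod_erase Finset.univ D (Finset.mem_univ u)]
    exact Nat.mul_dvd_mul_left _ (Finset.dvd_prod_of_mem _
      (Finset.mem_erase.2 ⟨huv.symm, Finset.mem_univ v⟩))

theorem mem_Fam' {c : G} {X m : ℕ} (h : m ∈ Fam c X) :
    Squarefree m ∧ m.Coprime 30 ∧ cl m = c := by
  classical
  unfold Fam at h
  exact (Finset.mem_filter.1 h).2

/-- the unlinked condition of the analytic part -/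
theorem unl_iff (T : Finset (Ix k)) : (∀ u ∈ T, ∀ v ∈ T, PhiK u v = PhiK v u) ↔ Unl T := by
  unfold Unl
  simp only [PhiK_symm_iff]

/-- the sums over the factorisations with given support -/
noncomputable def RR (e : S) (c : G) (s : Fin k → S) (T : Finset (Ix k)) (X : ℕ) : ℝ :=
  ∑ m ∈ Fam c X, (1 / ((2 ^ k : ℕ) : ℝ)) ^ m.primeFactors.card *
    ∑ D ∈ tupS T m, Fs e c s (fun u => cl (D u)) * symb PhiK D

open Classical in
/-- the constant of the main term -/
noncomputable def muT (e : S) (c : G) (s : Fin k → S) (T : Finset (Ix k)) : ℝ :=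
  if T.card = 2 ^ k ∧ Unl T then meanC T c (FT e c s) else 0

theorem RR_main (hk : 1 ≤ k) (e : S) (c : G) (s : Fin k → S) (T : Finset (Ix k)) :
    Sm (fun X => RR e c s T X - muT e c s T * ((Fam c X).card : ℝ)) := by
  have hN2 : 2 ≤ 2 ^ k := by
    calc 2 = 2 ^ 1 := by norm_num
      _ ≤ 2 ^ k := Nat.pow_le_pow_right (by norm_num) hk
  by_cases hT : T.card = 2 ^ k ∧ Unl T
  · unfold muT
    rw [if_pos hT]
    intro ε hε
    obtain ⟨X₀, h⟩ := T1b (2 ^ k) hN2 T hT.1 (FT e c s) c ε hε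
    refine ⟨X₀, fun X hX => ?_⟩
    have h1 := h X hX
    rw [Finset.sum_sub_distrib, Finset.sum_const, nsmul_eq_mul] at h1
    have h2 : RR e c s T X = ∑ m ∈ Fam c X, (1 / ((2 ^ k : ℕ) : ℝ)) ^ m.primeFactors.card *
        ∑ D ∈ tupS T m, FT e c s (fun u => cl (D u)) := by
      unfold RR
      refine Finset.sum_congr rfl fun m hm => ?_
      congr 1
      refine Finset.sum_congr rfl fun D hD => ?_
      obtain ⟨a1, a2, -⟩ := mem_Fam' hm
      obtain ⟨b1, b2, b3⟩ := tupS_props a1 a2 hD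
      unfold FT
      rw [symb_unl PhiK PhiK_self T ((unl_iff T).2 hT.2) D b1 b2 b3]
    show |RR e c s T X - meanC T c (FT e c s) * ((Fam c X).card : ℝ)| ≤ _
    rw [h2, mul_comm (meanC T c (FT e c s))]
    exact h1
  · unfold muT
    rw [if_neg hT]
    intro ε hε
    obtain ⟨X₀, h⟩ := T1a (PhiK (k := k)) PhiK_self (2 ^ k) hN2
      (fun U hU => unl_card U ((unl_iff U).1 hU)) T (by rw [unl_iff]; exact hT) (Fs e c s) c ε hε
    refine ⟨X₀, fun X hX => ?_⟩
    show |RR e c s T X - 0 * ((Fam c X).card : ℝ)| ≤ _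
    rw [zero_mul, sub_zero]
    exact h X hX

theorem meanC_eq (T : Finset (Ix k)) (c : G) (F : (Ix k → G) → ℝ) :
    meanC T c F = (∑ g ∈ cls T c, F g) / 16 ^ (T.card - 1) := by
  unfold meanC cls
  congr 1
  refine Finset.sum_congr ?_ fun _ _ => rfl
  ext g
  simp only [Finset.mem_filter]

open Classical in
/-- the total of the constants -/
theorem sum_mu {e : S} {c : G} (hg : Good e c) :
    ∑ s : Fin k → S, ∑ T : Finset (Ix k), (if IndT e s T then (1 : ℝ) else 0) * muT e c s T =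
      2 ^ k := by
  have h1 : ∀ (s : Fin k → S) (T : Finset (Ix k)), T ∉ univ.image (Uy (k := k)) →
      (if IndT e s T then (1 : ℝ) else 0) * muT e c s T = 0 := by
    intro s T hT
    by_cases hI : IndT e s T
    swap
    · rw [if_neg hI, zero_mul]
    unfold muT
    by_cases hU : T.card = 2 ^ k ∧ Unl T
    swap
    · rw [if_neg hU, mul_zero]
    rw [if_pos hU, meanC_eq]
    rcases unl_cases hU.2 hU.1 with ⟨a, b, d, ha, hb, hd, h⟩ | ⟨b, hb0, hb1, hb2⟩ | ⟨y, rfl⟩
    · rw [mean_a e c s hU.2 hU.1 a b d ha hb hd h]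
      simp
    · have hne : T.Nonempty := by
        rw [← Finset.card_pos, hU.1]; positivity
      obtain ⟨u0, hu0⟩ := hne
      rw [mean_b e c s hU.2 b u0 hu0 (hb2 u0 hu0)]
      · simp
      · have h2 := hI b hb0
        intro h3
        rcases z2_cases (b ⬝ᵥ u0.1) with h4 | h4
        · rw [h4, zero_smul, add_zero] at h3
          exact h2.1 ⟨h3, fun u hu => by rw [hb1 u hu u0 hu0, h4]⟩
        · rw [h4, one_smul] at h3
          have h5 : ∑ i, b i • s i = e := eeq_of_add h3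
          exact h2.2 ⟨h5, fun u hu => by rw [hb1 u hu u0 hu0, h4]⟩
    · exfalso
      apply hT
      rw [Finset.mem_image]
      exact ⟨y, Finset.mem_univ _, rfl⟩
  have h2 : ∀ (s : Fin k → S) (y : Vec k), IndT e s (Uy y) := by
    intro s y a ha
    obtain ⟨i, hi⟩ := Function.ne_iff.1 ha
    have hi' : a i = 1 := by
      rcases z2_cases (a i) with h | h
      · exact absurd h hi
      · exact h
    refine ⟨?_, ?_⟩
    · rintro ⟨-, h3⟩
      have h4 := h3 (Pi.single i 1, y) (mem_Uy.2 rfl)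
      simp only [dotProduct_single, mul_one, hi'] at h4
      exact absurd h4 (by decide)
    · rintro ⟨-, h3⟩
      have h4 := h3 (0, y) (mem_Uy.2 rfl)
      simp only [dotProduct_zero] at h4
      exact absurd h4 (by decide)
  have h3 : ∀ s : Fin k → S, ∑ T : Finset (Ix k), (if IndT e s T then (1 : ℝ) else 0) *
      muT e c s T = ∑ y : Vec k, (∑ g ∈ cls (Uy y) c, FT e c s g) / 16 ^ (2 ^ k - 1) := by
    intro s
    rw [← Finset.sum_subset (Finset.subset_univ (univ.image (Uy (k := k))))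
      (fun T _ hT => h1 s T hT), Finset.sum_image (fun a _ b _ h => Uy_inj h)]
    refine Finset.sum_congr rfl fun y _ => ?_
    rw [if_pos (h2 s y), one_mul]
    unfold muT
    rw [if_pos ⟨card_Uy y, unl_Uy y⟩, meanC_eq, card_Uy]
  simp only [h3]
  rw [Finset.sum_comm]
  simp only [← Finset.sum_div, mean_c hg]
  rw [Finset.sum_const, Finset.card_univ, Fintype.card_fun, ZMod.card, Fintype.card_fin,
    nsmul_eq_mul, mul_div_assoc, div_self (by positivity), mul_one]
  push_cast
  rfl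

/-- the right hand side of the identity -/
noncomputable def BB (k : ℕ) (e : S) (c : G) (m : ℕ) : ℝ :=
  (1 / ((2 ^ k : ℕ) : ℝ)) ^ m.primeFactors.card *
      ∑ s : Fin k → S, ∑ D ∈ tupA (Ix k) m, Gs e c s D

open Classical in
theorem sum_BB (e : S) (c : G) (X : ℕ) :
    ∑ m ∈ Fam c X, BB k e c m =
      ∑ s : Fin k → S, ∑ T : Finset (Ix k), (if IndT e s T then (1 : ℝ) else 0) * RR e c s T X := by
  have h1 : ∀ m, BB k e c m = ∑ s : Fin k → S, ∑ T : Finset (Ix k),
      (if IndT e s T then (1 : ℝ) else 0) * ((1 / ((2 ^ k : ℕ) : ℝ)) ^ m.primeFactors.card *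
    ∑ D ∈ tupS T m, Fs e c s (fun u => cl (D u)) * symb PhiK D) := by
    intro m
    unfold BB
    rw [Finset.mul_sum]
    refine Finset.sum_congr rfl fun s _ => ?_
    rw [sum_tupA, Finset.mul_sum]
    refine Finset.sum_congr rfl fun T _ => ?_
    rw [mul_left_comm]
    congr 1
    rw [Finset.mul_sum]
    refine Finset.sum_congr rfl fun D hD => ?_
    rw [tupS_eq, Finset.mem_filter] at hD
    unfold Gs
    rw [hD.2]
  simp only [h1]
  rw [Finset.sum_comm]
  refine Finset.sum_congr rfl fun s _ => ?_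
  rw [Finset.sum_comm]
  refine Finset.sum_congr rfl fun T _ => ?_
  unfold RR
  rw [Finset.mul_sum]

theorem sm_BB (hk : 1 ≤ k) {e : S} {c : G} (hg : Good e c) :
    Sm (fun X => ∑ m ∈ Fam c X, BB k e c m - 2 ^ k * ((Fam c X).card : ℝ)) := by
  classical
  have h1 : Sm (fun X => ∑ s : Fin k → S, ∑ T : Finset (Ix k),
      (if IndT e s T then (1 : ℝ) else 0) * (RR e c s T X - muT e c s T * ((Fam c X).card : ℝ))) :=
    Sm.sum _ fun s _ => Sm.sum _ fun T _ => (RR_main hk e c s T).const_mul _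
  have h2 : (fun X => ∑ m ∈ Fam c X, BB k e c m - 2 ^ k * ((Fam c X).card : ℝ)) =
      (fun X => ∑ s : Fin k → S, ∑ T : Finset (Ix k),
      (if IndT e s T then (1 : ℝ) else 0) * (RR e c s T X - muT e c s T * ((Fam c X).card : ℝ))) := by
    funext X
    rw [sum_BB, ← sum_mu (k := k) hg, Finset.sum_mul, ← Finset.sum_sub_distrib]
    refine Finset.sum_congr rfl fun s _ => ?_
    rw [Finset.sum_mul, ← Finset.sum_sub_distrib]
    refine Finset.sum_congr rfl fun T _ => ?_
    ring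
  rw [h2]
  exact h1

/-- the identity for one number -/
theorem BB_eq {e : S} {c : G} (hg : Good e c) {m : ℕ} (hm : Squarefree m) (h30 : m.Coprime 30)
    (hc : cl m = c) (h1 : m ≠ 1) :
    BB k e c m = 2 ^ k * ∏ i ∈ range k, ((Nat.card (V e m) : ℝ) / 2 - 2 ^ i) := by
  classical
  subst hc
  have h2 := ident (k := k) (e := e) hm h30
  rw [card_IndV (V e m) (dvec_mem hm h30 hg) (dvec_ne hm h1) k] at h2
  unfold BB
  push_cast
  rw [← h2]
  rw [← Finset.card_range k, ← Finset.prod_const, Finset.card_range, ← Finset.prod_mul_distrib]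
  refine Finset.prod_congr rfl fun i _ => ?_
  rw [pow_succ]
  ring

/-- **the moments** -/
theorem moment {e : S} {c : G} (hg : Good e c) (k : ℕ) (ε : ℝ) (hε : 0 < ε) :
    ∃ X₀ : ℕ, ∀ X : ℕ, X₀ ≤ X →
      |∑ m ∈ Fam c X, (∏ i ∈ range k, ((Nat.card (V e m) : ℝ) / 2 - 2 ^ i) - 1)| ≤ ε * X := by
  rcases Nat.eq_zero_or_pos k with rfl | hk
  · refine ⟨0, fun X _ => ?_⟩
    simp only [Finset.prod_range_zero, sub_self, Finset.sum_const_zero, abs_zero]
    positivity
  have h1 := (sm_BB (k := k) hk hg).const_mul ((1 : ℝ) / 2 ^ k)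
  set f : ℕ → ℝ := fun m => ∏ i ∈ range k, ((Nat.card (V e m) : ℝ) / 2 - 2 ^ i) with hf
  set K : ℝ := |f 1 - 1 / 2 ^ k * BB k e c 1| with hK
  have h2 : Sm (fun _ => K) := by
    intro ε hε
    refine ⟨⌈K / ε⌉₊, fun X hX => ?_⟩
    rw [abs_of_nonneg (abs_nonneg _)]
    have := Nat.ceil_le.1 hX
    rw [div_le_iff₀ hε] at this
    linarith
  have h3 : Sm (fun X => ∑ m ∈ Fam c X, (f m - 1)) := by
    have h4 : Sm (fun X => ∑ m ∈ Fam c X, (f m - 1 / 2 ^ k * BB k e c m)) := by
      refine Sm.mono h2 ⟨0, fun X _ => ?_⟩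
      rw [abs_of_nonneg (abs_nonneg (f 1 - 1 / 2 ^ k * BB k e c 1))]
      have h5 : ∀ m ∈ Fam c X, m ≠ 1 → f m - 1 / 2 ^ k * BB k e c m = 0 := by
        intro m hm hm1
        obtain ⟨a1, a2, a3⟩ := mem_Fam' hm
        rw [BB_eq hg a1 a2 a3 hm1, ← mul_assoc, one_div, inv_mul_cancel₀ (by positivity), one_mul,
          sub_self]
      by_cases h6 : 1 ∈ Fam c X
      · rw [Finset.sum_eq_single_of_mem 1 h6 h5]
      · rw [Finset.sum_eq_zero]
        · rw [abs_zero]; exact abs_nonneg _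
        · intro m hm
          exact h5 m hm (fun h => h6 (h ▸ hm))
    have h5 := h4.add h1
    have h6 : (fun X => ∑ m ∈ Fam c X, (f m - 1)) = (fun X =>
        ∑ m ∈ Fam c X, (f m - 1 / 2 ^ k * BB k e c m) +
        1 / 2 ^ k * (∑ m ∈ Fam c X, BB k e c m - 2 ^ k * ((Fam c X).card : ℝ))) := by
      funext X
      rw [Finset.sum_sub_distrib, Finset.sum_sub_distrib, ← Finset.mul_sum, Finset.sum_const,
        nsmul_eq_mul, mul_sub, ← mul_assoc (1 / (2 : ℝ) ^ k) (2 ^ k), one_div,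
        inv_mul_cancel₀ (by positivity)]
      ring
    rw [h6]
    exact h5
  exact h3 ε hε

end Vale.Agent.P017.H260
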