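import Vale.Agent.P017.H260.Moment
import Vale.Agent.P017.H509.P1

/-!
# The moments and the density of the minimal Selmer type groups
-/

namespace Vale.Agent.P017.H260

open Finset Vale.Agent.P017.H509

/-- all moments -/
theorem moment_all {e : S} {c : G} (hg : Good e c) (k : ℕ) : Moment e c k :=
  fun ε hε => moment hg k ε hε

open Classical in
/-- the density of the numbers with a minimal Selmer type group -/
theorem dens_min' {e : S} {c : G} (hg : Good e c) (ε : ℝ) (hε : 0 < ε) :
    ∃ X₀ : ℕ, ∀ X ≥ X₀, rho * (Fam c X).card - ε * X ≤
      (((Fam c X).filter (fun m => Nat.card (V e m) = 2)).card : ℝ) :=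
  dens_min hg (fun k _ => moment_all hg k) ε hε

end Vale.Agent.P017.H260
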