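import Mathlib

/-!
# Signs
-/

namespace Vale.Agent.P017.H260

open Finset

theorem z2_cases (a : ZMod 2) : a = 0 ∨ a = 1 := by
  revert a; decide

/-- the sign -/
noncomputable def sg (a : ZMod 2) : ℝ := if a = 0 then 1 else -1

theorem sg_zero : sg 0 = 1 := if_pos rfl

theorem sg_one : sg 1 = -1 := if_neg (by decide)

theorem sg_add (a b : ZMod 2) : sg (a + b) = sg a * sg b := by
  rcases z2_cases a with rfl | rfl <;> rcases z2_cases b with rfl | rfl
  · rw [add_zero, sg_zero, one_mul]
  · rw [zero_add, sg_zero, one_mul]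
  · rw [add_zero, sg_zero, mul_one]
  · rw [show (1 : ZMod 2) + 1 = 0 from by decide, sg_zero, sg_one]; norm_num

theorem sg_sum {ι : Type*} (s : Finset ι) (f : ι → ZMod 2) :
    sg (∑ i ∈ s, f i) = ∏ i ∈ s, sg (f i) := by
  classical
  induction s using Finset.induction_on with
  | empty => simp [sg_zero]
  | insert i s hi ih => rw [Finset.sum_insert hi, Finset.prod_insert hi, sg_add, ih]

theorem sum_sg_mul (z : ZMod 2) : ∑ a : ZMod 2, sg (a * z) = if z = 0 then 2 else 0 := by
  have h : ∀ f : ZMod 2 → ℝ, ∑ a : ZMod 2, f a = f 0 + f 1 := fun f => Fin.sum_univ_two f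
  rw [h, zero_mul, one_mul, sg_zero]
  rcases z2_cases z with rfl | rfl
  · rw [sg_zero, if_pos rfl]; norm_num
  · rw [sg_one, if_neg (by decide)]; norm_num

theorem sum_sg_linear {ι : Type*} [Fintype ι] [DecidableEq ι] (z : ι → ZMod 2) :
    ∑ y : ι → ZMod 2, sg (dotProduct y z) = if z = 0 then 2 ^ Fintype.card ι else 0 := by
  have h1 : ∀ y : ι → ZMod 2, sg (dotProduct y z) = ∏ i, sg (y i * z i) := by
    intro y; unfold dotProduct; rw [sg_sum]
  simp_rw [h1]
  have h2 := Finset.prod_univ_sum (fun _ : ι => (Finset.univ : Finset (ZMod 2)))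
    (fun i a => sg (a * z i))
  rw [Fintype.piFinset_univ] at h2
  rw [← h2]
  simp_rw [sum_sg_mul]
  split_ifs with hz
  · subst hz
    simp
  · obtain ⟨i, hi⟩ := Function.ne_iff.mp hz
    exact Finset.prod_eq_zero (Finset.mem_univ i) (if_neg hi)

theorem sg_mul_ite (a b : ZMod 2) : sg (a * b) = if b = 1 then sg a else 1 := by
  rcases z2_cases b with rfl | rfl
  · rw [mul_zero, sg_zero, if_neg (by decide)]
  · rw [mul_one, if_pos rfl]

theorem sg_abs (a : ZMod 2) : |sg a| = 1 := by
  unfold sg; split_ifs <;> simp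

end Vale.Agent.P017.H260
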