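import Mathlib
import Vale.Agent.P017.H260.Lin
import Vale.Agent.P017.H260.Sg
import Vale.Agent.P017.H509.Defs

/-!
# The sign attached to a tuple of classes
-/

namespace Vale.Agent.P017.H260

open Finset Vale.Agent.P017.H509

section general

variable {ι : Type*} [Fintype ι] [DecidableEq ι]

/-- an auxiliary strict order on a finite type -/
noncomputable def ord (u : ι) : ℕ := (Fintype.equivFin ι u : ℕ)

omit [DecidableEq ι] in
theorem ord_inj {u v : ι} (h : ord u = ord v) : u = v :=
  (Fintype.equivFin ι).injective (Fin.ext h)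

omit [DecidableEq ι] in
/-- splitting a double product -/
theorem prod_pairs {M : Type*} [CommMonoid M] (f : ι → ι → M) (hf : ∀ u, f u u = 1) :
    ∏ u, ∏ v, f u v = ∏ u, ∏ v, if ord u < ord v then f u v * f v u else 1 := by
  have h1 : ∀ u v : ι, f u v = (if ord u < ord v then f u v else 1) *
      (if ord v < ord u then f u v else 1) := by
    intro u v
    rcases lt_trichotomy (ord u) (ord v) with h | h | h
    · rw [if_pos h, if_neg (by omega), mul_one]
    · rw [if_neg (by omega), if_neg (by omega), ord_inj h, hf, one_mul]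
    · rw [if_neg (by omega), if_pos h, one_mul]
  have h2 : ∏ u, ∏ v, f u v = (∏ u, ∏ v, if ord u < ord v then f u v else 1) *
      ∏ u, ∏ v, if ord v < ord u then f u v else 1 := by
    rw [← Finset.prod_mul_distrib]
    refine Finset.prod_congr rfl fun u _ => ?_
    rw [← Finset.prod_mul_distrib]
    exact Finset.prod_congr rfl fun v _ => h1 u v
  rw [h2, Finset.prod_comm (f := fun u v => if ord v < ord u then f u v else 1),
    ← Finset.prod_mul_distrib]
  refine Finset.prod_congr rfl fun u _ => ?_
  rw [← Finset.prod_mul_distrib]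
  refine Finset.prod_congr rfl fun v _ => ?_
  split_ifs <;> simp

omit [DecidableEq ι] in
/-- splitting a double sum -/
theorem sum_pairs {M : Type*} [AddCommMonoid M] (f : ι → ι → M) (hf : ∀ u, f u u = 0) :
    ∑ u, ∑ v, f u v = ∑ u, ∑ v, if ord u < ord v then f u v + f v u else 0 :=
  prod_pairs (M := Multiplicative M) f hf

/-- the exponent of the sign attached to a tuple of classes -/
noncomputable def Tq (P : ι → ι → ZMod 2) (g : ι → G) : ZMod 2 :=
  ∑ u, ∑ v, if ord u < ord v then P u v * ((g u).1 * (g v).1) else 0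

/-- changing one class -/
theorem Tq_shift (P : ι → ι → ZMod 2) (U : Finset ι) (hP0 : ∀ u, P u u = 0)
    (hP : ∀ u ∈ U, ∀ v ∈ U, P u v = P v u) (g : ι → G) (hg : ∀ u, u ∉ U → g u = 0) (a : ι)
    (ha : a ∈ U) (δ : G) :
    Tq P (g + Pi.single a δ) = Tq P g + δ.1 * ∑ v, P a v * (g v).1 := by
  have h0 : δ.1 * ∑ v, P a v * (g v).1 =
      ∑ u, ∑ v, if u = a then δ.1 * (P a v * (g v).1) else 0 := by
    refine Eq.symm ((Finset.sum_eq_single a ?_ ?_).trans ?_)
    · intro b _ hb
      exact Finset.sum_eq_zero fun v _ => if_neg hb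
    · intro h
      exact absurd (Finset.mem_univ a) h
    · rw [Finset.mul_sum]
      refine Finset.sum_congr rfl fun v _ => ?_
      rw [if_pos rfl]
  rw [h0, sum_pairs]
  swap
  · intro u
    split_ifs with h
    · subst h; rw [hP0]; ring
    · rfl
  unfold Tq
  rw [← Finset.sum_add_distrib]
  refine Finset.sum_congr rfl fun u _ => ?_
  rw [← Finset.sum_add_distrib]
  refine Finset.sum_congr rfl fun v _ => ?_
  by_cases huv : ord u < ord v
  · rw [if_pos huv, if_pos huv, if_pos huv]
    have hne : u ≠ v := by rintro rfl; omega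
    simp only [Pi.add_apply, Prod.fst_add]
    by_cases hu : u = a
    · subst hu
      rw [if_pos rfl, if_neg hne.symm, Pi.single_eq_same, Pi.single_eq_of_ne hne.symm]
      rw [show (0 : G).1 = 0 from rfl]
      ring
    · by_cases hv : v = a
      · subst hv
        rw [if_neg hu, if_pos rfl, Pi.single_eq_same, Pi.single_eq_of_ne hne]
        rw [show (0 : G).1 = 0 from rfl]
        by_cases hU : u ∈ U
        · rw [hP u hU v ha]; ring
        · rw [hg u hU]
          rw [show (0 : G).1 = 0 from rfl]
          ring
      · rw [if_neg hu, if_neg hv, Pi.single_eq_of_ne hu, Pi.single_eq_of_ne hv]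
        rw [show (0 : G).1 = 0 from rfl]
        ring
  · rw [if_neg huv, if_neg huv, if_neg huv, add_zero]

end general

end Vale.Agent.P017.H260
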