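import Vale.Agent.P017.H260.MeanC

/-!
# Factorisations and colourings of the prime factors
-/

namespace Vale.Agent.P017.H260

open Finset Vale.Agent.P017.H509 Vale.Agent.P014

section symbols

theorem J_one_left (e : ℕ) : J 1 e = 1 := by
  unfold H580.J; rw [Nat.cast_one, jacobiSym.one_left, Int.cast_one]

theorem J_one_right (e : ℕ) : J e 1 = 1 := by
  unfold H580.J; rw [jacobiSym.one_right, Int.cast_one]

theorem J_prod_left {ι : Type*} (s : Finset ι) (f : ι → ℕ) (e : ℕ) :
    J (∏ i ∈ s, f i) e = ∏ i ∈ s, J (f i) e := by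
  classical
  induction s using Finset.induction_on with
  | empty => simp [J_one_left]
  | insert i s hi ih => rw [Finset.prod_insert hi, Finset.prod_insert hi, H580.J_mul_left, ih]

theorem J_prod_right {ι : Type*} (s : Finset ι) (f : ι → ℕ) (hf : ∀ i ∈ s, f i ≠ 0) (e : ℕ) :
    J e (∏ i ∈ s, f i) = ∏ i ∈ s, J e (f i) := by
  classical
  induction s using Finset.induction_on with
  | empty => simp [J_one_right]
  | insert i s hi ih =>
    rw [Finset.prod_insert hi, Finset.prod_insert hi, H580.J_mul_right _ _ _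
      (hf i (Finset.mem_insert_self _ _))
      (Finset.prod_ne_zero_iff.mpr fun j hj => hf j (Finset.mem_insert_of_mem hj)),
      ih fun j hj => hf j (Finset.mem_insert_of_mem hj)]

/-- Jacobi symbols of coprime numbers are signs -/
theorem J_eq_sg {a b : ℕ} (h : Nat.Coprime a b) : J a b = sg (lg a b) := by
  have h1 : Int.gcd (a : ℤ) (b : ℤ) = 1 := by rw [Int.gcd_natCast_natCast]; exact h
  unfold lg H580.J
  rcases jacobiSym.eq_one_or_neg_one h1 with h2 | h2
  · rw [h2, if_neg (by norm_num), sg_zero]; norm_num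
  · rw [h2, if_pos rfl, sg_one]; norm_num

/-- reciprocity -/
theorem J_recip {a b : ℕ} (ha : a % 2 = 1) (hb : b % 2 = 1) (h : Nat.Coprime a b) :
    J a b * J b a = sg ((cl a).1 * (cl b).1) := by
  have ha' := Nat.odd_iff.2 ha
  have hb' := Nat.odd_iff.2 hb
  have h1 : Int.gcd (a : ℤ) (b : ℤ) = 1 := by rw [Int.gcd_natCast_natCast]; exact h
  have h2 := jacobiSym.quadratic_reciprocity ha' hb'
  have h3 : J a b * J b a = ((-1 : ℝ)) ^ (a / 2 * (b / 2)) := by
    unfold H580.J
    rw [h2]
    have h4 := jacobiSym.sq_one h1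
    have h1' : Int.gcd (b : ℤ) (a : ℤ) = 1 := by rw [Int.gcd_natCast_natCast]; exact h.symm
    have h5 := jacobiSym.sq_one h1'
    push_cast
    have h6 : ((jacobiSym (b : ℤ) a : ℤ) : ℝ) * ((jacobiSym (b : ℤ) a : ℤ) : ℝ) = 1 := by
      rw [← Int.cast_mul, ← sq, h5, Int.cast_one]
    rw [mul_assoc, h6, mul_one]
  rw [h3]
  have h7 : ∀ n : ℕ, n % 2 = 1 → (cl n).1 = ((n / 2 : ℕ) : ZMod 2) := by
    intro n hn
    have h8 : n % 4 = 1 ∨ n % 4 = 3 := by omega
    show (if n % 4 = 3 then (1 : ZMod 2) else 0) = _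
    rcases h8 with h8 | h8
    · rw [if_neg (by omega)]
      symm
      rw [ZMod.natCast_eq_zero_iff]
      omega
    · rw [if_pos h8]
      have h9 : n / 2 = 2 * (n / 4) + 1 := by omega
      rw [h9]
      push_cast
      rw [show (2 : ZMod 2) = 0 from rfl]
      ring
  rw [h7 a ha, h7 b hb, ← Nat.cast_mul]
  generalize a / 2 * (b / 2) = n
  rcases Nat.even_or_odd n with hn | hn
  · rw [hn.neg_one_pow]
    have : (n : ZMod 2) = 0 := by
      rw [ZMod.natCast_eq_zero_iff]; exact hn.two_dvd
    rw [this, sg_zero]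
  · rw [hn.neg_one_pow]
    have : (n : ZMod 2) = 1 := by
      obtain ⟨j, rfl⟩ := hn
      push_cast
      rw [show (2 : ZMod 2) = 0 from rfl]
      ring
    rw [this, sg_one]

theorem cl_one : cl 1 = 0 := by unfold cl; decide

theorem cl_mod (n : ℕ) : cl n = cl (n % 120) := by
  unfold cl
  have h1 : n % 120 % 4 = n % 4 := by omega
  have h2 : n % 120 % 8 = n % 8 := by omega
  have h3 : n % 120 % 3 = n % 3 := by omega
  have h4 : n % 120 % 5 = n % 5 := by omega
  rw [h1, h2, h3, h4]

theorem cl_mul_fin : ∀ a b : Fin 120, Nat.Coprime a 30 → Nat.Coprime b 30 →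
    cl ((a : ℕ) * b) = cl a + cl b := by
  decide +kernel

/-- the class is multiplicative -/
theorem cl_mul {a b : ℕ} (ha : Nat.Coprime a 30) (hb : Nat.Coprime b 30) :
    cl (a * b) = cl a + cl b := by
  have h1 : ∀ n : ℕ, Nat.Coprime n 30 → Nat.Coprime (n % 120) 30 := by
    intro n hn
    unfold Nat.Coprime at *
    have h2 : Nat.gcd (n % 120) 30 = Nat.gcd n 30 := by
      have h3 : n % 120 % 30 = n % 30 := by omega
      rw [Nat.gcd_comm, Nat.gcd_rec, h3, ← Nat.gcd_rec, Nat.gcd_comm]
    rw [h2, hn]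
  have h3 := cl_mul_fin ⟨a % 120, Nat.mod_lt _ (by norm_num)⟩ ⟨b % 120, Nat.mod_lt _ (by norm_num)⟩
    (h1 a ha) (h1 b hb)
  simp only at h3
  rw [cl_mod (a * b), cl_mod a, cl_mod b, Nat.mul_mod, ← cl_mod, h3]

theorem cl_prod {ι : Type*} (s : Finset ι) (f : ι → ℕ) (hf : ∀ i ∈ s, Nat.Coprime (f i) 30) :
    cl (∏ i ∈ s, f i) = ∑ i ∈ s, cl (f i) := by
  classical
  induction s using Finset.induction_on with
  | empty => simp [cl_one]
  | insert i s hi ih =>
    rw [Finset.prod_insert hi, Finset.sum_insert hi, cl_mul (hf i (Finset.mem_insert_self _ _))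
      (Nat.Coprime.prod_left fun j hj => hf j (Finset.mem_insert_of_mem hj)),
      ih fun j hj => hf j (Finset.mem_insert_of_mem hj)]

end symbols

section colourings

variable {ι : Type*} [Fintype ι] [DecidableEq ι]

/-- all factorisations -/
noncomputable def tupA (ι : Type*) [Fintype ι] [DecidableEq ι] (n : ℕ) : Finset (ι → ℕ) :=
  (Fintype.piFinset fun _ => n.divisors).filter fun D => ∏ u, D u = n

/-- the support -/
def supp (D : ι → ℕ) : Finset ι := univ.filter fun u => D u ≠ 1

omit [DecidableEq ι] in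
theorem mem_supp {D : ι → ℕ} {u : ι} : u ∈ supp D ↔ D u ≠ 1 := by unfold supp; simp

theorem tupS_eq (T : Finset ι) (n : ℕ) : tupS T n = (tupA ι n).filter fun D => supp D = T := by
  ext D
  unfold tupS tupA
  rw [Finset.filter_filter, Finset.mem_filter, Finset.mem_filter]
  refine and_congr_right fun _ => and_congr_right fun _ => ?_
  rw [Finset.ext_iff]
  refine forall_congr' fun u => ?_
  rw [mem_supp]

theorem sum_tupA (n : ℕ) (F : (ι → ℕ) → ℝ) :
    ∑ D ∈ tupA ι n, F D = ∑ T : Finset ι, ∑ D ∈ tupS T n, F D := by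
  rw [← Finset.sum_fiberwise (tupA ι n) supp]
  refine Finset.sum_congr rfl fun T _ => ?_
  rw [tupS_eq]

/-- the factorisation attached to a colouring -/
def Dc {n : ℕ} (c : n.primeFactors → ι) (u : ι) : ℕ :=
  ∏ p ∈ Finset.univ.filter (fun p => c p = u), (p : ℕ)

theorem prod_Dc {n : ℕ} (hn : Squarefree n) (c : n.primeFactors → ι) : ∏ u, Dc c u = n := by
  unfold Dc
  rw [Finset.prod_fiberwise Finset.univ c (fun p => (p : ℕ)),
    Finset.prod_coe_sort n.primeFactors (fun p => p)]
  exact Nat.prod_primeFactors_of_squarefree hn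

theorem Dc_dvd {n : ℕ} (hn : Squarefree n) (c : n.primeFactors → ι) (u : ι) : Dc c u ∣ n := by
  conv_rhs => rw [← prod_Dc hn c]
  exact Finset.dvd_prod_of_mem _ (Finset.mem_univ u)

omit [Fintype ι] in
theorem dvd_Dc_iff {n : ℕ} (c : n.primeFactors → ι) (u : ι) (p : n.primeFactors) :
    (p : ℕ) ∣ Dc c u ↔ c p = u := by
  have hpr : ∀ p : n.primeFactors, (p : ℕ).Prime := fun p => Nat.prime_of_mem_primeFactors p.2
  unfold Dc
  rw [(hpr p).prime.dvd_finsetProd_iff]
  constructor
  · rintro ⟨q, hq, hpq⟩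
    rw [Finset.mem_filter] at hq
    have : p = q := Subtype.ext ((Nat.prime_dvd_prime_iff_eq (hpr p) (hpr q)).mp hpq)
    rw [this]; exact hq.2
  · intro h
    exact ⟨p, Finset.mem_filter.mpr ⟨Finset.mem_univ _, h⟩, dvd_rfl⟩

theorem sum_Dc {n : ℕ} (hn : Squarefree n) (F : (ι → ℕ) → ℝ) :
    ∑ c : n.primeFactors → ι, F (Dc c) = ∑ D ∈ tupA ι n, F D := by
  classical
  have hn0 : n ≠ 0 := hn.ne_zero
  refine Finset.sum_bij (fun c _ => Dc c) ?_ ?_ ?_ ?_
  · intro c _
    unfold tupA
    rw [Finset.mem_filter, Fintype.mem_piFinset]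
    exact ⟨fun u => Nat.mem_divisors.mpr ⟨Dc_dvd hn c u, hn0⟩, prod_Dc hn c⟩
  · intro c _ c' _ h
    funext p
    have h1 := (dvd_Dc_iff c (c p) p).mpr rfl
    have h' : Dc c = Dc c' := h
    rw [h'] at h1
    exact ((dvd_Dc_iff c' (c p) p).mp h1).symm
  · intro D hD
    unfold tupA at hD
    rw [Finset.mem_filter, Fintype.mem_piFinset] at hD
    obtain ⟨hD1, hD2⟩ := hD
    have hD0 : ∀ u, D u ≠ 0 := fun u => (Nat.pos_of_mem_divisors (hD1 u)).ne'
    have h1 : ∀ p : n.primeFactors, ∃ u, (p : ℕ) ∣ D u := by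
      intro p
      have h2 : (p : ℕ) ∣ ∏ u, D u := hD2.symm ▸ Nat.dvd_of_mem_primeFactors p.2
      rw [(Nat.prime_of_mem_primeFactors p.2).prime.dvd_finsetProd_iff] at h2
      obtain ⟨u, _, hu⟩ := h2
      exact ⟨u, hu⟩
    choose c hc using h1
    refine ⟨c, Finset.mem_univ _, ?_⟩
    funext u
    have hDn : ∀ u, D u ∣ n := fun u => Nat.dvd_of_mem_divisors (hD1 u)
    rw [Nat.Squarefree.ext_iff (hn.squarefree_of_dvd (Dc_dvd hn c u))
      (hn.squarefree_of_dvd (hDn u))]
    intro p hp
    constructor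
    · intro h
      have hpn : p ∈ n.primeFactors :=
        Nat.mem_primeFactors.mpr ⟨hp, h.trans (Dc_dvd hn c u), hn0⟩
      have h4 := (dvd_Dc_iff c u ⟨p, hpn⟩).mp h
      have h5 := hc ⟨p, hpn⟩
      rwa [h4] at h5
    · intro h
      have hpn : p ∈ n.primeFactors :=
        Nat.mem_primeFactors.mpr ⟨hp, h.trans (hDn u), hn0⟩
      refine (dvd_Dc_iff c u ⟨p, hpn⟩).mpr ?_
      by_contra hne
      have h5 := hc ⟨p, hpn⟩
      have h6 : p * p ∣ n := by
        rw [← hD2, ← Finset.mul_prod_erase Finset.univ D (Finset.mem_univ u)]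
        exact Nat.mul_dvd_mul h (h5.trans (Finset.dvd_prod_of_mem _
          (Finset.mem_erase.mpr ⟨hne, Finset.mem_univ _⟩)))
      exact hp.not_isUnit (hn p h6)
  · intro c _; rfl

omit [Fintype ι] in
/-- the class of the factors -/
theorem cl_Dc {n : ℕ} (h30 : Nat.Coprime n 30) (c : n.primeFactors → ι) (u : ι) :
    cl (Dc c u) = ∑ p ∈ univ.filter (fun p => c p = u), cl (p : ℕ) := by
  unfold Dc
  rw [cl_prod]
  intro p _
  exact Nat.Coprime.coprime_dvd_left (Nat.dvd_of_mem_primeFactors p.2) h30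

/-- sums over indices of additive functions of the classes -/
theorem sum_cl_Dc {n : ℕ} (h30 : Nat.Coprime n 30) (c : n.primeFactors → ι) {M : Type*}
    [AddCommMonoid M] (f : ι → G → M) (hf : ∀ u, f u 0 = 0)
    (hadd : ∀ u a b, f u (a + b) = f u a + f u b) :
    ∑ u, f u (cl (Dc c u)) = ∑ p, f (c p) (cl (p : ℕ)) := by
  rw [← Finset.sum_fiberwise Finset.univ c (fun p => f (c p) (cl (p : ℕ)))]
  refine Finset.sum_congr rfl fun u _ => ?_
  rw [cl_Dc h30]
  have h1 : ∀ s : Finset n.primeFactors, (∀ p ∈ s, c p = u) →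
      f u (∑ p ∈ s, cl (p : ℕ)) = ∑ p ∈ s, f (c p) (cl (p : ℕ)) := by
    intro s
    classical
    induction s using Finset.induction_on with
    | empty => intro _; simp [hf]
    | insert i s hi ih =>
      intro h
      rw [Finset.sum_insert hi, Finset.sum_insert hi, hadd,
        ih fun j hj => h j (Finset.mem_insert_of_mem hj), h i (Finset.mem_insert_self _ _)]
  exact h1 _ fun p hp => (Finset.mem_filter.1 hp).2

/-- the symbols in terms of the colouring -/
theorem symb_Dc {n : ℕ} (P : ι → ι → ZMod 2) (hP : ∀ u, P u u = 0) (c : n.primeFactors → ι) :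
    symb P (Dc c) = sg (∑ p : n.primeFactors, ∑ q : n.primeFactors,
      if q = p then 0 else P (c q) (c p) * lg q p) := by
  have hpr : ∀ p : n.primeFactors, (p : ℕ).Prime := fun p => Nat.prime_of_mem_primeFactors p.2
  rw [sg_sum]
  simp only [sg_sum]
  rw [Finset.prod_comm]
  have h1 : ∀ u v : ι, (if P u v = 1 then J (Dc c u) (Dc c v) else 1) =
      ∏ q ∈ Finset.univ.filter (fun q => c q = u), ∏ p ∈ Finset.univ.filter (fun p => c p = v),
        sg (if q = p then 0 else P (c q) (c p) * lg q p) := by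
    intro u v
    split_ifs with h
    · unfold Dc
      rw [J_prod_left]
      refine Finset.prod_congr rfl fun q hq => ?_
      rw [Finset.mem_filter] at hq
      rw [J_prod_right _ _ fun q _ => (hpr q).ne_zero]
      refine Finset.prod_congr rfl fun p hp => ?_
      rw [Finset.mem_filter] at hp
      have hne : q ≠ p := by
        rintro rfl
        rw [← hq.2, ← hp.2, hP] at h
        exact absurd h (by decide)
      rw [if_neg hne, hq.2, hp.2, h, one_mul, J_eq_sg]
      rw [Nat.coprime_primes (hpr q) (hpr p)]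
      exact fun h' => hne (Subtype.ext h')
    · refine (Finset.prod_eq_one fun q hq => Finset.prod_eq_one fun p hp => ?_).symm
      rw [Finset.mem_filter] at hp hq
      split_ifs
      · exact sg_zero
      · have : P (c q) (c p) = 0 := by
          rw [hq.2, hp.2]
          exact (z2_cases _).resolve_right h
        rw [this, zero_mul, sg_zero]
  unfold symb
  rw [Finset.prod_congr rfl fun u _ => Finset.prod_congr rfl fun v _ => h1 u v]
  have h2 : ∀ u : ι, ∏ v : ι, ∏ q ∈ Finset.univ.filter (fun q => c q = u),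
      ∏ p ∈ Finset.univ.filter (fun p => c p = v), sg (if q = p then 0 else P (c q) (c p) * lg q p) =
      ∏ q ∈ Finset.univ.filter (fun q => c q = u),
        ∏ p : n.primeFactors, sg (if q = p then 0 else P (c q) (c p) * lg q p) := by
    intro u
    rw [Finset.prod_comm]
    refine Finset.prod_congr rfl fun q _ => ?_
    exact Finset.prod_fiberwise _ _ _
  rw [Finset.prod_congr rfl fun u _ => h2 u]
  exact Finset.prod_fiberwise _ _ _

omit [DecidableEq ι] in
/-- for an unlinked support the symbols depend on the classes only -/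
theorem symb_unl (P : ι → ι → ZMod 2) (hP0 : ∀ u, P u u = 0) (T : Finset ι)
    (hP : ∀ u ∈ T, ∀ v ∈ T, P u v = P v u) (D : ι → ℕ) (hD : ∀ u, u ∉ T → D u = 1)
    (hodd : ∀ u, D u % 2 = 1) (hcop : ∀ u v, u ≠ v → Nat.Coprime (D u) (D v)) :
    symb P D = sg (Tq P fun u => cl (D u)) := by
  classical
  unfold symb Tq
  rw [prod_pairs]
  · rw [sg_sum]
    refine Finset.prod_congr rfl fun u _ => ?_
    rw [sg_sum]
    refine Finset.prod_congr rfl fun v _ => ?_
    beta_reduce
    split_ifs with huv h1 h2 h2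
    · have hne : u ≠ v := by rintro rfl; omega
      rw [J_recip (hodd u) (hodd v) (hcop u v hne), h1, one_mul]
    · by_cases hu : u ∈ T
      · by_cases hv : v ∈ T
        · exact absurd (hP u hu v hv ▸ h1) h2
        · rw [hD v hv, J_one_right, cl_one, show (0 : G).1 = 0 from rfl, mul_zero, mul_zero,
            sg_zero, one_mul]
      · rw [hD u hu, J_one_left, cl_one, show (0 : G).1 = 0 from rfl, zero_mul, mul_zero,
          sg_zero, one_mul]
    · by_cases hu : u ∈ T
      · by_cases hv : v ∈ T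
        · exact absurd (hP u hu v hv ▸ h2) h1
        · rw [hD v hv, J_one_left, cl_one, show (0 : G).1 = 0 from rfl, mul_zero, mul_zero,
            sg_zero, one_mul]
      · rw [hD u hu, J_one_right, cl_one, show (0 : G).1 = 0 from rfl, zero_mul, mul_zero,
          sg_zero, one_mul]
    · rw [(z2_cases (P u v)).resolve_right h1, zero_mul, sg_zero, one_mul]
    · exact sg_zero.symm
  · intro u
    rw [hP0, if_neg (by decide)]

end colourings

end Vale.Agent.P017.H260
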